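import Mathlib

/-!
# ROW 285, BP-TOP (helper286): [C] Section 6 as PURE logic/analysis (no model, no sorry)

`Cr b n` = correlation, `m b` = mass, `a b` = structural coefficient, `bc` = critical point.
`coef_critical_of'` : the inputs of [C] Section 6, in their WEAKEST form, give `a bc = 8π`:
  * a polynomial lower bound for the critical correlation along SOME subsequence (no Messager--Miracle-Sole),
  * `a b > 0 ⟹ m b ≤ 0` (instead of the sharp spin lower bound of [C] s4).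
`coef_critical_of` : the same from the original six contracts.
-/

namespace Claimed.Agent.R285.Glue

open Filter Topology

/-- a polynomial lower bound forces a non-positive mass. -/
theorem mass_nonpos_of_poly_lower {C : ℕ → ℝ} {m κ : ℝ}
    (hm : Tendsto (fun r : ℕ => -(1 / (r : ℝ)) * Real.log (C r)) atTop (𝓝 m))
    (hlow : ∀ᶠ n : ℕ in atTop, (n : ℝ) ^ (-κ) ≤ C n) : m ≤ 0 := by
  have h0 : Tendsto (fun n : ℕ => κ * (Real.log n / (n : ℝ))) atTop (𝓝 (κ * 0)) := by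
    refine Tendsto.const_mul κ ?_
    have := Real.isLittleO_log_id_atTop.tendsto_div_nhds_zero
    exact this.comp tendsto_natCast_atTop_atTop
  rw [mul_zero] at h0
  refine le_of_tendsto_of_tendsto hm h0 ?_
  filter_upwards [hlow, eventually_ge_atTop 1] with n hn h1
  have hn' : (0 : ℝ) < n := by exact_mod_cast (by omega : 0 < n)
  have hp : 0 < (n : ℝ) ^ (-κ) := Real.rpow_pos_of_pos hn' _
  have hl : Real.log ((n : ℝ) ^ (-κ)) ≤ Real.log (C n) := Real.log_le_log hp hn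
  rw [Real.log_rpow hn'] at hl
  have e : κ * (Real.log n / (n : ℝ)) - -(1 / (n : ℝ)) * Real.log (C n)
      = (1 / (n : ℝ)) * (Real.log (C n) - -κ * Real.log n) := by
    field_simp
    ring
  have : 0 ≤ (1 / (n : ℝ)) * (Real.log (C n) - -κ * Real.log n) :=
    mul_nonneg (by positivity) (by linarith)
  linarith

/-- [C] Section 6, weakest inputs. -/
theorem coef_critical_of' {Cr : ℝ → ℕ → ℝ} {m a : ℝ → ℝ} {bc : ℝ}
    (hpos : 0 < bc)
    (hmpos : ∀ b, 0 < b → b < bc → 0 < m b)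
    (hlow : ∃ K : ℝ, ∃ᶠ n : ℕ in atTop, (n : ℝ) ^ (-K) ≤ Cr bc n)
    (hgap : ∀ b, 0 < b → a b = 0 ∨ 8 * Real.pi ≤ a b)
    (hzero : ∀ b, 0 < b → a b = 0 → ∀ K : ℝ, ∀ᶠ n : ℕ in atTop, Cr b n ≤ (n : ℝ) ^ (-K))
    (hmz : ∀ b, 0 < b → 0 < a b → m b ≤ 0)
    (hopen : ∀ b, 0 < b → 8 * Real.pi < a b → ∀ᶠ b' in 𝓝 b, 0 < a b') :
    a bc = 8 * Real.pi := by
  rcases hgap bc hpos with h0 | h8
  · -- `a = 0` contradicts the polynomial lower bound
    exfalso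
    obtain ⟨K, hK⟩ := hlow
    obtain ⟨n, hn1, hn2, hn3⟩ :=
      (hK.and_eventually ((hzero bc hpos h0 (K + 1)).and (eventually_ge_atTop 2))).exists
    have hn' : (1 : ℝ) < n := by exact_mod_cast (by omega : 1 < n)
    have h1 := hn1.trans hn2
    have h2 : (n : ℝ) ^ (-(K + 1)) < (n : ℝ) ^ (-K) :=
      Real.rpow_lt_rpow_of_exponent_lt hn' (by linarith)
    exact absurd h1 (not_le.2 h2)
  · rcases h8.eq_or_lt with h | h
    · exact h.symm
    · exfalso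
      have h1 : ∀ᶠ b' in 𝓝[<] bc, 0 < a b' := (hopen bc hpos h).filter_mono nhdsWithin_le_nhds
      have h2 : ∀ᶠ b' in 𝓝[<] bc, 0 < b' :=
        (eventually_gt_nhds hpos).filter_mono nhdsWithin_le_nhds
      have h3 : ∀ᶠ b' in 𝓝[<] bc, b' < bc := eventually_mem_nhdsWithin
      obtain ⟨b', ha, hb0, hb1⟩ := (h1.and (h2.and h3)).exists
      exact absurd (hmpos b' hb0 hb1) (not_lt.2 (hmz b' hb0 ha))

/-- `1/(2r+1)⁴ ≤ C(2r)` is a polynomial lower bound along a subsequence. -/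
theorem poly_lower_of_even {C : ℕ → ℝ} (h : ∀ r : ℕ, 1 ≤ r → 1 / (2 * (r : ℝ) + 1) ^ 4 ≤ C (2 * r)) :
    ∃ K : ℝ, ∃ᶠ n : ℕ in atTop, (n : ℝ) ^ (-K) ≤ C n := by
  refine ⟨8, frequently_atTop.2 fun N => ⟨2 * (N + 1), by omega, ?_⟩⟩
  refine le_trans ?_ (h (N + 1) (by omega))
  have hx : (2 : ℝ) ≤ ((2 * (N + 1) : ℕ) : ℝ) := by
    push_cast
    have : (0 : ℝ) ≤ N := Nat.cast_nonneg N
    linarith
  obtain ⟨x, hxdef⟩ : ∃ x : ℝ, x = ((2 * (N + 1) : ℕ) : ℝ) := ⟨_, rfl⟩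
  have e : 2 * ((N + 1 : ℕ) : ℝ) + 1 = x + 1 := by rw [hxdef]; push_cast; ring
  rw [e, ← hxdef]
  rw [← hxdef] at hx
  have hx0 : 0 < x := by linarith
  rw [Real.rpow_neg hx0.le, ← one_div]
  have e8 : x ^ (8 : ℝ) = (x ^ 2) ^ 4 := by
    rw [← pow_mul]
    exact_mod_cast Real.rpow_natCast x 8
  rw [e8]
  refine one_div_le_one_div_of_le (by positivity) ?_
  exact pow_le_pow_left₀ (by linarith) (by nlinarith) 4

/-- `1/(8n) ≤ C(n)` is a polynomial lower bound. -/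
theorem poly_lower_of_vEL {C : ℕ → ℝ} (h : ∀ n : ℕ, 1 ≤ n → 1 / (8 * (n : ℝ)) ≤ C n) :
    ∃ K : ℝ, ∃ᶠ n : ℕ in atTop, (n : ℝ) ^ (-K) ≤ C n := by
  refine ⟨2, Eventually.frequently ?_⟩
  filter_upwards [eventually_ge_atTop 8] with n hn
  refine le_trans ?_ (h n (by omega))
  have hn' : (8 : ℝ) ≤ n := by exact_mod_cast hn
  rw [Real.rpow_neg (by linarith), Real.rpow_two, ← one_div]
  exact one_div_le_one_div_of_le (by linarith) (by nlinarith)

/-- [C] Section 6 from the original six contracts. -/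
theorem coef_critical_of {Cr : ℝ → ℕ → ℝ} {m a : ℝ → ℝ} {bc : ℝ}
    (hpos : 0 < bc)
    (hmass : ∀ b, 0 < b → Tendsto (fun r : ℕ => -(1 / (r : ℝ)) * Real.log (Cr b r)) atTop (𝓝 (m b)))
    (hmpos : ∀ b, 0 < b → b < bc → 0 < m b)
    (hlow : ∀ n : ℕ, 1 ≤ n → 1 / (8 * (n : ℝ)) ≤ Cr bc n)
    (hgap : ∀ b, 0 < b → a b = 0 ∨ 8 * Real.pi ≤ a b)
    (hzero : ∀ b, 0 < b → a b = 0 → ∀ K : ℝ, ∀ᶠ n : ℕ in atTop, Cr b n ≤ (n : ℝ) ^ (-K))
    (hspin : ∀ b, 0 < b → 0 < a b → ∀ ε : ℝ, 0 < ε →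
      ∀ᶠ n : ℕ in atTop, (n : ℝ) ^ (-(2 * Real.pi / a b) - ε) ≤ Cr b n)
    (hopen : ∀ b, 0 < b → 8 * Real.pi < a b → ∀ᶠ b' in 𝓝 b, 0 < a b') :
    a bc = 8 * Real.pi := by
  refine coef_critical_of' hpos hmpos (poly_lower_of_vEL hlow) hgap hzero (fun b hb ha => ?_) hopen
  refine mass_nonpos_of_poly_lower (κ := 2 * Real.pi / a b + 1) (hmass b hb) ?_
  filter_upwards [hspin b hb ha 1 one_pos] with n hn
  have e : -(2 * Real.pi / a b + 1) = -(2 * Real.pi / a b) - 1 := by ring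
  rw [e]; exact hn

end Claimed.Agent.R285.Glue
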