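import Claimed.Agent.R285.Glue.E5c

/-!
# ROW 285, BP-GLUE-E510 (helper286): [E] Proposition 5.10 (the profile has one jump, at the passage time)   (pure analysis, no sorry)

`profile_step`: `CoefHyp` ([E] (5.2), monotonicity, `a_m(b_c) → A`) + `PhaseHyp` ([E] L5.8, L5.9) + `TorusHyp` ([E] P5.6 last assertion, P4.4)
give the sequence form `ProfileStep` of Top.lean.     `A = 8π`, `γ = 𝔤 = 1/(8π²)`, `e α = 2 - α/(4π)`.
-/

namespace Claimed.Agent.R285.Glue.E5

open Filter Topology MeasureTheory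

noncomputable section

/-- the inputs of [E] P5.10 on the torus cosine variance `V b n = Var^{tor}_{b,n} H_n`. -/
structure TorusHyp (bc : ℝ) (L D0 : ℕ) (T A γ : ℝ) (a V : ℝ → ℕ → ℝ) : Prop where
  hT : 0 < T
  hγ : 0 < γ
  /-- [E] P5.6, last assertion, in sequence form -/
  torus : ∀ b, Below bc b → ∀ w α, 0 < w → CoefAt bc L a b w α → ∀ n, Scale bc L b n w →
    Tendsto (fun k => V (b k) (n k)) atTop (𝓝 (α * γ))
  /-- [E] (4.16) -/
  before : ∀ (ε : ℕ → ℝ) (j : ℕ → ℕ) (w : ℝ), (∀ k, 0 < ε k) → Tendsto ε atTop (𝓝 0) → 0 < w → w < T →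
    Tendsto (fun k => Real.sqrt (ε k) * (j k : ℝ)) atTop (𝓝 w) →
    Tendsto (fun k => V (bc - ε k) (D0 * L ^ j k)) atTop (𝓝 (A * γ))
  /-- [E] (4.17), (4.18) -/
  exit : ∃ (c : ℝ) (je : ℝ → ℕ), 0 < c ∧
    Tendsto (fun ε => Real.sqrt ε * (je ε : ℝ)) (𝓝[>] 0) (𝓝 T) ∧
    ∀ᶠ ε in 𝓝[>] 0, V (bc - ε) (D0 * L ^ je ε) ≤ A * γ - c

variable {bc : ℝ} {L D0 : ℕ} {T A γ : ℝ} {e : ℝ → ℝ} {a z V : ℝ → ℕ → ℝ}

/-- the values of an extracted profile. -/
theorem profile_values (H : CoefHyp bc L A a) (P : PhaseHyp bc L D0 A e a z)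
    (Q : TorusHyp bc L D0 T A γ a V) {b : ℕ → ℝ} (hb : Below bc b) {𝒜 : ℝ → ℝ} (hanti : Antitone 𝒜)
    (hrange : ∀ w, 0 ≤ 𝒜 w ∧ 𝒜 w ≤ A)
    (hco : ∀ w, 0 < w → ContinuousAt 𝒜 w → CoefAt bc L a b w (𝒜 w)) :
    (∀ w, w < T → 𝒜 w = A) ∧ (∀ w, T < w → 𝒜 w = 0) := by
  have hL := H.hL
  -- continuity points are dense
  have hdense : ∀ x y : ℝ, x < y → ∃ t, ContinuousAt 𝒜 t ∧ x < t ∧ t < y := by
    intro x y hxy
    obtain ⟨t, ht, ht'⟩ := (hanti.countable_not_continuousAt.dense_compl ℝ).exists_between hxy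
    refine ⟨t, ?_, ht'.1, ht'.2⟩
    by_contra hcon
    exact ht hcon
  -- dichotomy
  have hdich : ∀ w, 0 < w → ContinuousAt 𝒜 w → 𝒜 w = 0 ∨ 𝒜 w = A := by
    intro w hw hc
    by_contra hcon
    push Not at hcon
    have h0 : 0 < 𝒜 w := lt_of_le_of_ne (hrange w).1 (Ne.symm hcon.1)
    have hA : 𝒜 w < A := lt_of_le_of_ne (hrange w).2 hcon.2
    obtain ⟨η, hη⟩ : ∃ η, η = min (𝒜 w) (A - 𝒜 w) / 2 := ⟨_, rfl⟩
    have hηpos : 0 < η := by
      rw [hη]
      exact half_pos (lt_min h0 (sub_pos.2 hA))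
    have hη1 : 2 * η ≤ 𝒜 w := by rw [hη]; linarith [min_le_left (𝒜 w) (A - 𝒜 w)]
    have hη2 : 2 * η ≤ A - 𝒜 w := by rw [hη]; linarith [min_le_right (𝒜 w) (A - 𝒜 w)]
    obtain ⟨ρ, hρ, hρ'⟩ := Metric.continuousAt_iff.1 hc η hηpos
    refine P.no_intermediate H hb hanti hco (u := max (w - ρ / 2) (w / 2)) (v := w + ρ / 2) (η := η)
      (lt_max_of_lt_right (half_pos hw)) (max_lt (by linarith) (by linarith)) hηpos ?_
    intro t ht
    have h1 := hρ' (x := t) (by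
      rw [Real.dist_eq, abs_lt]
      constructor
      · linarith [(le_max_left (w - ρ / 2) (w / 2)).trans_lt ht.1]
      · linarith [ht.2])
    rw [Real.dist_eq, abs_lt] at h1
    constructor <;> linarith [h1.1, h1.2]
  have hεpos : ∀ k, 0 < bc - b k := fun k => sub_pos.2 (hb.1 k)
  have hε0 : Tendsto (fun k => bc - b k) atTop (𝓝 0) := by
    have h : Tendsto (fun k => bc - b k) atTop (𝓝 (bc - bc)) := tendsto_const_nhds.sub hb.2
    rwa [sub_self] at h
  -- before the passage time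
  have hbefore : ∀ w, 0 < w → w < T → ContinuousAt 𝒜 w → 𝒜 w = A := by
    intro w hw hwT hc
    have hj : Tendsto (fun k => Real.sqrt (bc - b k) * ((⌊w / (Real.sqrt (bc - b k) * 1)⌋₊ : ℕ) : ℝ))
        atTop (𝓝 w) := by
      refine (hb.floor_scale one_pos hw.le).congr fun k => ?_
      rw [one_mul]
    have h1 := Q.before (fun k => bc - b k) _ w hεpos hε0 hw hwT hj
    have h2 := Q.torus b hb w (𝒜 w) hw (hco w hw hc) _ (scale_pow hL P.hD0 hb hj)
    simp only [sub_sub_cancel] at h1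
    have h3 := tendsto_nhds_unique h2 h1
    exact mul_right_cancel₀ Q.hγ.ne' h3
  have hleft : ∀ w, w < T → 𝒜 w = A := by
    intro w hw
    obtain ⟨t, htc, ht1, ht2⟩ := hdense (max w 0) T (max_lt hw Q.hT)
    have h1 := hbefore t ((le_max_right w 0).trans_lt ht1) ht2 htc
    have h2 := hanti ((le_max_left w 0).trans ht1.le)
    exact le_antisymm (hrange w).2 (h1 ▸ h2)
  -- after the passage time
  have hafter : ∀ w, T < w → ContinuousAt 𝒜 w → 𝒜 w = 0 := by
    intro w hw hc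
    rcases hdich w (Q.hT.trans hw) hc with h | h
    · exact h
    · exfalso
      have hconst : ∀ t, t ≤ w → 𝒜 t = A := fun t ht => le_antisymm (hrange t).2 (h ▸ hanti ht)
      have hcT : ContinuousAt 𝒜 T := by
        refine (continuousAt_const (y := A)).congr ?_
        filter_upwards [eventually_lt_nhds hw] with t ht
        exact (hconst t ht.le).symm
      obtain ⟨c, je, hc0, hje, hex⟩ := Q.exit
      have hεw : Tendsto (fun k => bc - b k) atTop (𝓝[>] 0) :=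
        tendsto_nhdsWithin_iff.2 ⟨hε0, Eventually.of_forall hεpos⟩
      have hj : Tendsto (fun k => Real.sqrt (bc - b k) * (je (bc - b k) : ℝ)) atTop (𝓝 T) :=
        hje.comp hεw
      have h2 := Q.torus b hb T (𝒜 T) Q.hT (hco T Q.hT hcT) _ (scale_pow hL P.hD0 hb hj)
      rw [hconst T hw.le] at h2
      have h3 : ∀ᶠ k in atTop, V (b k) (D0 * L ^ je (bc - b k)) ≤ A * γ - c := by
        filter_upwards [hεw.eventually hex] with k hk
        rwa [sub_sub_cancel] at hk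
      have := le_of_tendsto h2 h3
      linarith
  refine ⟨hleft, fun w hw => ?_⟩
  obtain ⟨t, htc, ht1, ht2⟩ := hdense T w hw
  have h1 := hafter t ht1 htc
  exact le_antisymm (h1 ▸ hanti ht2.le) (hrange w).1

/-- [E] Proposition 5.10 in the sequence form of `ProfileStep`. -/
theorem profile_step (H : CoefHyp bc L A a) (P : PhaseHyp bc L D0 A e a z)
    (Q : TorusHyp bc L D0 T A γ a V) (b : ℕ → ℝ) (m : ℕ → ℕ) (w : ℝ) (hb1 : ∀ k, b k < bc)
    (hb2 : Tendsto b atTop (𝓝 bc))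
    (hm : Tendsto (fun k => Real.sqrt (bc - b k) * Real.logb L (m k)) atTop (𝓝 w)) :
    (0 < w → w < T → Tendsto (fun k => a (b k) (m k)) atTop (𝓝 A)) ∧
    (T < w → Tendsto (fun k => a (b k) (m k)) atTop (𝓝 0)) := by
  have hb : Below bc b := ⟨hb1, hb2⟩
  have key : ∀ ns : ℕ → ℕ, Tendsto ns atTop atTop → ∃ φ : ℕ → ℕ, ∃ 𝒜 : ℝ → ℝ,
      ((∀ w, w < T → 𝒜 w = A) ∧ (∀ w, T < w → 𝒜 w = 0)) ∧
      (0 < w → ContinuousAt 𝒜 w → Tendsto (fun k => a (b (ns (φ k))) (m (ns (φ k)))) atTop (𝓝 (𝒜 w))) := by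
    intro ns hns
    have hb' := hb.comp hns
    obtain ⟨φ, hφ, 𝒜, hanti, hrange, hco⟩ := H.profile_exists hb'
    have hb'' := hb'.comp hφ.tendsto_atTop
    refine ⟨φ, 𝒜, profile_values H P Q hb'' hanti hrange hco, fun hw hc => ?_⟩
    exact hco w hw hc _ ((Scale.comp (Scale.comp hm hns) hφ.tendsto_atTop))
  constructor
  · intro hw hwT
    refine tendsto_of_subseq_tendsto fun ns hns => ?_
    obtain ⟨φ, 𝒜, ⟨h1, -⟩, h3⟩ := key ns hns
    refine ⟨φ, ?_⟩
    have hc : ContinuousAt 𝒜 w := by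
      refine (continuousAt_const (y := A)).congr ?_
      filter_upwards [eventually_lt_nhds hwT] with t ht
      exact (h1 t ht).symm
    have := h3 hw hc
    rwa [h1 w hwT] at this
  · intro hwT
    refine tendsto_of_subseq_tendsto fun ns hns => ?_
    obtain ⟨φ, 𝒜, ⟨-, h2⟩, h3⟩ := key ns hns
    refine ⟨φ, ?_⟩
    have hc : ContinuousAt 𝒜 w := by
      refine (continuousAt_const (y := (0 : ℝ))).congr ?_
      filter_upwards [eventually_gt_nhds hwT] with t ht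
      exact (h2 t ht).symm
    have := h3 (Q.hT.trans hwT) hc
    rwa [h2 w hwT] at this

end

end Claimed.Agent.R285.Glue.E5
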