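import Mathlib

/-!
# ROW 285, BP-GLUE-E510 (helper286): [E] Lemma 5.9, first half, as pure analysis (no sorry)

`sub_of_ratio`: if `z ∈ (0, 1]` and `z_{Gm} ≥ c z_m` for all large `m`, with ONE constant `c` for all large `G`, then `-log z_{D₀ L^j} = o(j)`.
(At `b_c` the exponent `2 - a/(4π)` of the face ratio [C] (2.15) vanishes.)
-/

namespace Claimed.Agent.R285.Glue.E5

open Filter Topology

theorem sub_of_ratio {z : ℕ → ℝ} {L D0 : ℕ} (hL : 2 ≤ L) (hD0 : 1 ≤ D0) (hpos : ∀ m, 1 ≤ m → 0 < z m)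
    (hle : ∀ m, z m ≤ 1) {c : ℝ} (hc : 0 < c) {G0 : ℕ}
    (h : ∀ G, G0 ≤ G → ∀ᶠ m in atTop, c * z m ≤ z (G * m)) :
    Tendsto (fun j : ℕ => -Real.log (z (D0 * L ^ j)) / (j : ℝ)) atTop (𝓝 0) := by
  have hLpos : 0 < L := by omega
  have hsz : ∀ j, 1 ≤ D0 * L ^ j := fun j => Nat.mul_pos (by omega) (Nat.pow_pos hLpos)
  obtain ⟨ζ, hζ⟩ : ∃ ζ : ℕ → ℝ, ζ = fun j => -Real.log (z (D0 * L ^ j)) := ⟨_, rfl⟩
  have hζ0 : ∀ j, 0 ≤ ζ j := fun j => by
    rw [hζ]
    have := Real.log_nonpos (hpos _ (hsz j)).le (hle (D0 * L ^ j))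
    simp only
    linarith
  have hgoal : Tendsto (fun j : ℕ => ζ j / (j : ℝ)) atTop (𝓝 0) := by
    rw [Metric.tendsto_atTop]
    intro ε hε
    -- the stride
    obtain ⟨r, hr1, hrG, hrK⟩ : ∃ r : ℕ, 1 ≤ r ∧ G0 ≤ L ^ r ∧ |Real.log c| / (r : ℝ) < ε / 2 := by
      have h1 : Tendsto (fun r : ℕ => L ^ r) atTop atTop :=
        tendsto_pow_atTop_atTop_of_one_lt (by omega)
      have h2 : Tendsto (fun r : ℕ => |Real.log c| / (r : ℝ)) atTop (𝓝 0) :=
        tendsto_const_div_atTop_nhds_zero_nat _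
      obtain ⟨r, h⟩ := ((eventually_ge_atTop 1).and ((h1.eventually_ge_atTop G0).and
        (h2.eventually (eventually_lt_nhds (half_pos hε))))).exists
      exact ⟨r, h.1, h.2.1, h.2.2⟩
    have hr' : (0 : ℝ) < r := by exact_mod_cast (by omega : 0 < r)
    obtain ⟨m0, hm0⟩ := eventually_atTop.1 (h (L ^ r) hrG)
    have hstep : ∀ j, m0 ≤ j → ζ (j + r) ≤ ζ j + |Real.log c| := by
      intro j hj
      have hm : m0 ≤ D0 * L ^ j :=
        calc m0 ≤ j := hj
          _ ≤ L ^ j := (Nat.lt_pow_self (by omega)).le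
          _ ≤ D0 * L ^ j := Nat.le_mul_of_pos_left _ (by omega)
      have h1 := hm0 _ hm
      have h2 := hpos _ (hsz j)
      have h3 := Real.log_le_log (mul_pos hc h2) h1
      rw [Real.log_mul hc.ne' h2.ne'] at h3
      have e : D0 * L ^ (j + r) = L ^ r * (D0 * L ^ j) := by rw [pow_add]; ring
      rw [hζ]
      simp only
      rw [e]
      linarith [neg_abs_le (Real.log c)]
    have hiter : ∀ q i : ℕ, m0 ≤ i → ζ (i + q * r) ≤ ζ i + q * |Real.log c| := by
      intro q
      induction q with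
      | zero => intro i _; simp
      | succ q ih =>
        intro i hi
        have h1 := hstep (i + q * r) (by omega)
        have e : i + (q + 1) * r = i + q * r + r := by ring
        rw [e]
        push_cast
        linarith [ih i hi]
    obtain ⟨M, hM⟩ : ∃ M : ℝ, M = ∑ t ∈ Finset.range r, ζ (m0 + t) := ⟨_, rfl⟩
    have hM0 : 0 ≤ M := by rw [hM]; exact Finset.sum_nonneg fun t _ => hζ0 _
    have hwin : ∀ t, t < r → ζ (m0 + t) ≤ M := by
      intro t ht
      rw [hM]
      exact Finset.single_le_sum (f := fun t => ζ (m0 + t)) (fun t _ => hζ0 _) (Finset.mem_range.2 ht)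
    obtain ⟨N1, hN1⟩ := exists_nat_gt (2 * M / ε)
    refine ⟨max (max m0 N1) 1, fun j hj => ?_⟩
    have hj0 : m0 ≤ j := (le_max_left _ _).trans ((le_max_left _ _).trans hj)
    have hj1 : N1 ≤ j := (le_max_right _ _).trans ((le_max_left _ _).trans hj)
    have hj2 : 1 ≤ j := (le_max_right _ _).trans hj
    have hjpos : (0 : ℝ) < j := by exact_mod_cast (by omega : 0 < j)
    have hdecomp : j = (m0 + (j - m0) % r) + ((j - m0) / r) * r := by
      have := Nat.mod_add_div (j - m0) r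
      have h2 : (j - m0) / r * r = r * ((j - m0) / r) := Nat.mul_comm _ _
      omega
    have h1 := hiter ((j - m0) / r) (m0 + (j - m0) % r) (by omega)
    rw [← hdecomp] at h1
    have h2 := hwin ((j - m0) % r) (Nat.mod_lt _ (by omega))
    have h3 : (((j - m0) / r : ℕ) : ℝ) ≤ (j : ℝ) / r := by
      rw [le_div_iff₀ hr']
      have : (j - m0) / r * r ≤ j := (Nat.div_mul_le_self _ _).trans (Nat.sub_le _ _)
      exact_mod_cast this
    have h4 : ζ j ≤ M + (j : ℝ) / r * |Real.log c| := by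
      have := mul_le_mul_of_nonneg_right h3 (abs_nonneg (Real.log c))
      linarith
    rw [Real.dist_eq, sub_zero, abs_of_nonneg (div_nonneg (hζ0 j) hjpos.le), div_lt_iff₀ hjpos]
    have h5 : 2 * M / ε < j := hN1.trans_le (by exact_mod_cast hj1)
    rw [div_lt_iff₀ hε] at h5
    have h6 : (j : ℝ) / r * |Real.log c| = |Real.log c| / r * j := by ring
    have h7 : |Real.log c| / r * j < ε / 2 * j := mul_lt_mul_of_pos_right hrK hjpos
    rw [h6] at h4
    nlinarith
  rw [hζ] at hgoal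
  exact hgoal

end Claimed.Agent.R285.Glue.E5
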