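import Claimed.Agent.R285.TopC
import Claimed.Agent.R285.Glue.E5d
import Claimed.Agent.R285.Glue.E5e

/-!
# ROW 285, BP-GLUE-E510 (helper286): the hypotheses of `E5.profile_step` from the contracts of the FREE unit (`Read/C2.lean`)

NO sorry in this file.
* `scaleCoef_of_coefAt` : `CoefAt` (all sequences at one logarithmic scale) ⟹ `C2.ScaleCoef` (all comparable sequences)
* `coefHyp`  : `E5.CoefHyp  b_c L (8π) aCoef`                                   from `C2.aCoef_nonneg, aCoef_mono_b, cut_coefficient`, `aCoef_critical_tendsto`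
* `phaseHyp` : `E5.PhaseHyp b_c L D₀ (8π) (2 - ·/(4π)) aCoef C2.zface`          from `C2.zface_pos, zface_le_one, zface_mono_b, face_ratio, face_ratio_rough, scaleCoef_fixed`
               ([E] L5.9 first half is DERIVED: `E5.sub_of_ratio`.)
-/

set_option autoImplicit false

namespace Claimed.Agent.R285.Glue

open Filter Topology Claims.C0459
open Claimed.Agent.R285.Glue.E5

theorem scaleCoef_of_coefAt {L : ℕ} (hL : 2 ≤ L) {b : ℕ → ℝ} (hb : Below xyCritical b)
    (hb0 : ∀ k, xyCritical / 2 ≤ b k) {w α : ℝ} (hw : 0 < w) (hco : CoefAt xyCritical L aCoef b w α)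
    {n : ℕ → ℕ} (hn : Scale xyCritical L b n w) : C2.ScaleCoef b n α :=
  ⟨⟨xyCritical / 2, xyCritical, half_pos xy_critical_pos, fun k => ⟨hb0 k, (hb.1 k).le⟩⟩,
    hn.size_atTop hL hb hw, fun m _ _ hc hm => hco m (hn.comparable hL hb hw hc hm)⟩

theorem ev_pos : ∀ᶠ x in 𝓝[<] xyCritical, xyCritical / 2 ≤ x ∧ x ≤ xyCritical := by
  have h1 : ∀ᶠ x in 𝓝[<] xyCritical, xyCritical / 2 < x :=
    (eventually_gt_nhds (half_lt_self xy_critical_pos)).filter_mono nhdsWithin_le_nhds
  have h2 : ∀ᶠ x in 𝓝[<] xyCritical, x < xyCritical := eventually_mem_nhdsWithin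
  filter_upwards [h1, h2] with x hx1 hx2
  exact ⟨hx1.le, hx2.le⟩

theorem coefHyp {L : ℕ} (hL : 2 ≤ L) : CoefHyp xyCritical L (8 * Real.pi) aCoef where
  hL := hL
  nonneg := by
    filter_upwards [ev_pos] with x hx m
    exact C2.aCoef_nonneg x (lt_of_lt_of_le (half_pos xy_critical_pos) hx.1) m
  mono := by
    filter_upwards [ev_pos] with x hx m
    exact C2.aCoef_mono_b x xyCritical (lt_of_lt_of_le (half_pos xy_critical_pos) hx.1) hx.2 m
  crit := aCoef_critical_tendsto
  cut := by
    obtain ⟨C, hC⟩ := C2.cut_coefficient xyCritical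
    refine ⟨C, ?_⟩
    filter_upwards [ev_pos] with x hx m M hm hmM
    have := hC x (lt_of_lt_of_le (half_pos xy_critical_pos) hx.1) hx.2 m M hm hmM
    rwa [← one_div] at this

theorem phaseHyp {L D0 : ℕ} (hL : 2 ≤ L) (hD0 : 1 ≤ D0) :
    PhaseHyp xyCritical L D0 (8 * Real.pi) (fun α => 2 - α / (4 * Real.pi)) aCoef C2.zface := by
  have hbc := xy_critical_pos
  have hpi := Real.pi_pos
  obtain ⟨c, G₀, hc, hratio⟩ := C2.face_ratio xyCritical
  refine
    { hD0 := hD0
      e_anti := ?_
      e_pos := ?_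
      pos := ?_
      le_one := ?_
      mono := ?_
      crit_pos := fun m hm => C2.zface_pos xyCritical hbc m hm
      sub := ?_
      ratio := ⟨c, hc, max G₀ 4, ?_, ?_⟩ }
  · intro x y hxy
    have : x / (4 * Real.pi) ≤ y / (4 * Real.pi) := div_le_div_of_nonneg_right hxy (by positivity)
    simp only
    linarith
  · intro α hα
    have : α / (4 * Real.pi) < 2 := by
      rw [div_lt_iff₀ (by positivity)]
      linarith
    linarith
  · filter_upwards [ev_pos] with x hx m hm
    exact C2.zface_pos x (lt_of_lt_of_le (half_pos hbc) hx.1) m hm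
  · filter_upwards [ev_pos] with x hx m
    exact C2.zface_le_one x (lt_of_lt_of_le (half_pos hbc) hx.1) m
  · filter_upwards [ev_pos] with x hx m
    exact C2.zface_mono_b x xyCritical (lt_of_lt_of_le (half_pos hbc) hx.1) hx.2 m
  · -- [E] L5.9, first half
    refine sub_of_ratio hL hD0 (fun m hm => C2.zface_pos xyCritical hbc m hm)
      (fun m => C2.zface_le_one xyCritical hbc m) hc (G0 := G₀) fun G hG => ?_
    have h1 := hratio G hG (fun _ => xyCritical) (fun k => k) (aLim xyCritical)
      (C2.scaleCoef_fixed xyCritical hbc _ tendsto_id) (fun _ => le_rfl)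
      (by rw [aLim_critical]; positivity)
    have e : (2 : ℝ) - aLim xyCritical / (4 * Real.pi) = 0 := by
      rw [aLim_critical]
      field_simp
      ring
    rw [e] at h1
    simpa using h1
  · -- [E] (5.17)
    intro G hG b hb w α hw hα hco m hm c' hc'
    obtain ⟨hb', hev⟩ := hb.truncate (half_lt_self hbc)
    have hS : C2.ScaleCoef (fun k => max (b k) (xyCritical / 2)) m α :=
      scaleCoef_of_coefAt hL hb' (fun k => le_max_right _ _) hw (hco.congr_temp hev) (hm.congr_temp hev)
    have h1 := hratio G ((le_max_left _ _).trans hG) _ m α hS (fun k => (hb'.1 k).le) hα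
    filter_upwards [h1, hev, (hm.size_atTop hL hb hw).eventually_ge_atTop 1,
      hb.2.eventually (eventually_gt_nhds hbc)] with k hk1 hk2 hk3 hk4
    rw [← hk2] at hk1
    exact (mul_le_mul_of_nonneg_right hc'.le (C2.zface_pos (b k) hk4 (m k) hk3).le).trans hk1
  · -- [E] (5.18)
    intro G hG
    obtain ⟨cG, m₀, hcG, h⟩ := C2.face_ratio_rough (xyCritical / 2) xyCritical (half_pos hbc) G
      ((le_max_right _ _).trans hG)
    refine ⟨cG, hcG, m₀, ?_⟩
    filter_upwards [ev_pos] with x hx m hm
    exact h m hm x hx.1 hx.2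

end Claimed.Agent.R285.Glue
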