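import Mathlib

/-!
# ROW 285, BP-GLUE-E510 (helper286): logarithmic scales at a moving temperature  (pure analysis, no sorry)

`Below bc b`      : `b_k < b_c`, `b_k → b_c`;  `δ_k = √(b_c - b_k)`.
`Scale bc L b m w`: `δ_k log_L m_k → w`.
`CoefAt bc L a b w α` : EVERY integer sequence at the logarithmic scale `w` has `a_{m_k}(b_k) → α`
                    (= "`w` is a continuity point of the extracted profile with value `α`" of [E] s5, without any profile).
-/

namespace Claimed.Agent.R285.Glue.E5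

open Filter Topology

noncomputable section

variable {bc : ℝ} {L : ℕ}

def Below (bc : ℝ) (b : ℕ → ℝ) : Prop := (∀ k, b k < bc) ∧ Tendsto b atTop (𝓝 bc)

def Scale (bc : ℝ) (L : ℕ) (b : ℕ → ℝ) (m : ℕ → ℕ) (w : ℝ) : Prop :=
  Tendsto (fun k => Real.sqrt (bc - b k) * Real.logb L (m k)) atTop (𝓝 w)

def CoefAt (bc : ℝ) (L : ℕ) (a : ℝ → ℕ → ℝ) (b : ℕ → ℝ) (w α : ℝ) : Prop :=
  ∀ m : ℕ → ℕ, Scale bc L b m w → Tendsto (fun k => a (b k) (m k)) atTop (𝓝 α)

theorem Below.pos {b : ℕ → ℝ} (hb : Below bc b) (k : ℕ) : 0 < Real.sqrt (bc - b k) :=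
  Real.sqrt_pos.2 (sub_pos.2 (hb.1 k))

theorem Below.tendsto_dl {b : ℕ → ℝ} (hb : Below bc b) :
    Tendsto (fun k => Real.sqrt (bc - b k)) atTop (𝓝 0) := by
  have h : Tendsto (fun k => bc - b k) atTop (𝓝 (bc - bc)) := tendsto_const_nhds.sub hb.2
  rw [sub_self] at h
  have h2 := (Real.continuous_sqrt.tendsto 0).comp h
  rw [Real.sqrt_zero] at h2
  exact h2

theorem Below.inv_atTop {b : ℕ → ℝ} (hb : Below bc b) :
    Tendsto (fun k => (Real.sqrt (bc - b k))⁻¹) atTop atTop :=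
  tendsto_inv_nhdsGT_zero.comp
    (tendsto_nhdsWithin_iff.2 ⟨hb.tendsto_dl, Eventually.of_forall hb.pos⟩)

theorem Below.eventually {b : ℕ → ℝ} (hb : Below bc b) {P : ℝ → Prop} (h : ∀ᶠ x in 𝓝[<] bc, P x) :
    ∀ᶠ k in atTop, P (b k) :=
  (tendsto_nhdsWithin_iff.2 ⟨hb.2, Eventually.of_forall hb.1⟩ :
    Tendsto b atTop (𝓝[<] bc)).eventually h

theorem Below.comp {b : ℕ → ℝ} (hb : Below bc b) {φ : ℕ → ℕ} (hφ : Tendsto φ atTop atTop) :
    Below bc (fun k => b (φ k)) :=
  ⟨fun k => hb.1 (φ k), hb.2.comp hφ⟩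

theorem Scale.comp {b : ℕ → ℝ} {m : ℕ → ℕ} {w : ℝ} (h : Scale bc L b m w) {φ : ℕ → ℕ}
    (hφ : Tendsto φ atTop atTop) : Scale bc L (fun k => b (φ k)) (fun k => m (φ k)) w :=
  Tendsto.comp (f := φ) h hφ

/-- `δ_k x_k → w > 0` forces `x_k → ∞`. -/
theorem Below.atTop_of_mul {b : ℕ → ℝ} (hb : Below bc b) {x : ℕ → ℝ} {w : ℝ} (hw : 0 < w)
    (h : Tendsto (fun k => Real.sqrt (bc - b k) * x k) atTop (𝓝 w)) : Tendsto x atTop atTop := by
  refine (h.pos_mul_atTop hw hb.inv_atTop).congr fun k => ?_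
  have := (hb.pos k).ne'
  field_simp

/-- `δ_k r ⌊t/(δ_k r)⌋ → t`. -/
theorem Below.floor_scale {b : ℕ → ℝ} (hb : Below bc b) {r : ℝ} (hr : 0 < r) {t : ℝ} (ht : 0 ≤ t) :
    Tendsto (fun k => Real.sqrt (bc - b k) * (r * (⌊t / (Real.sqrt (bc - b k) * r)⌋₊ : ℝ)))
      atTop (𝓝 t) := by
  have h1 : Tendsto (fun k => t - Real.sqrt (bc - b k) * r) atTop (𝓝 (t - 0 * r)) :=
    tendsto_const_nhds.sub (hb.tendsto_dl.mul_const r)
  rw [zero_mul, sub_zero] at h1
  refine tendsto_of_tendsto_of_tendsto_of_le_of_le h1 tendsto_const_nhds (fun k => ?_) (fun k => ?_)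
  · have hd : 0 < Real.sqrt (bc - b k) * r := mul_pos (hb.pos k) hr
    have := Nat.lt_floor_add_one (t / (Real.sqrt (bc - b k) * r))
    rw [div_lt_iff₀ hd] at this
    simp only
    nlinarith
  · have hd : 0 < Real.sqrt (bc - b k) * r := mul_pos (hb.pos k) hr
    have := Nat.floor_le (div_nonneg ht hd.le)
    rw [le_div_iff₀ hd] at this
    simp only
    nlinarith

theorem Scale.logb_atTop {b : ℕ → ℝ} (hb : Below bc b) {m : ℕ → ℕ} {w : ℝ} (hw : 0 < w)
    (h : Scale bc L b m w) : Tendsto (fun k => Real.logb L (m k)) atTop atTop :=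
  hb.atTop_of_mul hw h

theorem Scale.size_atTop (hL : 2 ≤ L) {b : ℕ → ℝ} (hb : Below bc b) {m : ℕ → ℕ} {w : ℝ} (hw : 0 < w)
    (h : Scale bc L b m w) : Tendsto m atTop atTop := by
  have hL1 : (1 : ℝ) < L := by exact_mod_cast (by omega : 1 < L)
  have hlog : 0 < Real.log L := Real.log_pos hL1
  have h1 : Tendsto (fun k => Real.logb L (m k) * Real.log L) atTop atTop :=
    (h.logb_atTop hb hw).atTop_mul_const hlog
  have h2 : Tendsto (fun k => ((m k : ℕ) : ℝ)) atTop atTop := by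
    refine tendsto_atTop_mono (fun k => ?_) h1
    rw [Real.logb, div_mul_cancel₀ _ hlog.ne']
    exact Real.log_le_self (Nat.cast_nonneg _)
  exact tendsto_natCast_atTop_iff.1 h2

/-- two different scales: the ratio of the sizes tends to zero. -/
theorem Scale.ratio (hL : 2 ≤ L) {b : ℕ → ℝ} (hb : Below bc b) {m M : ℕ → ℕ} {w w' : ℝ} (hw : 0 < w)
    (hww : w < w') (h : Scale bc L b m w) (h' : Scale bc L b M w') :
    Tendsto (fun k => (m k : ℝ) / (M k : ℝ)) atTop (𝓝 0) := by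
  have hL1 : (1 : ℝ) < L := by exact_mod_cast (by omega : 1 < L)
  have hlog : 0 < Real.log L := Real.log_pos hL1
  have hm := h.size_atTop hL hb hw
  have hM := h'.size_atTop hL hb (hw.trans hww)
  have h1 : Tendsto (fun k => Real.logb L (M k) - Real.logb L (m k)) atTop atTop := by
    refine hb.atTop_of_mul (sub_pos.2 hww) ((Tendsto.sub h' h).congr fun k => ?_)
    ring
  have h2 : Tendsto (fun k => -((Real.logb L (M k) - Real.logb L (m k)) * Real.log L)) atTop atBot :=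
    tendsto_neg_atTop_atBot.comp (h1.atTop_mul_const hlog)
  refine (Real.tendsto_exp_atBot.comp h2).congr' ?_
  filter_upwards [hm.eventually_ge_atTop 1, hM.eventually_ge_atTop 1] with k hk hK
  have hk' : (0 : ℝ) < m k := by exact_mod_cast (by omega : 0 < m k)
  have hK' : (0 : ℝ) < M k := by exact_mod_cast (by omega : 0 < M k)
  simp only [Function.comp, Real.logb]
  rw [sub_mul, div_mul_cancel₀ _ hlog.ne', div_mul_cancel₀ _ hlog.ne', neg_sub, Real.exp_sub,
    Real.exp_log hk', Real.exp_log hK']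

theorem Scale.le_of_lt (hL : 2 ≤ L) {b : ℕ → ℝ} (hb : Below bc b) {m M : ℕ → ℕ} {w w' : ℝ} (hw : 0 < w)
    (hww : w < w') (h : Scale bc L b m w) (h' : Scale bc L b M w') : ∀ᶠ k in atTop, m k ≤ M k := by
  have hM := h'.size_atTop hL hb (hw.trans hww)
  filter_upwards [(h.ratio hL hb hw hww h').eventually (eventually_lt_nhds one_pos),
    hM.eventually_ge_atTop 1] with k hk hK
  have hK' : (0 : ℝ) < M k := by exact_mod_cast (by omega : 0 < M k)
  rw [div_lt_one hK'] at hk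
  exact_mod_cast hk.le

/-- the sizes `D₀ L^{j_k}`. -/
theorem scale_pow (hL : 2 ≤ L) {D0 : ℕ} (hD0 : 1 ≤ D0) {b : ℕ → ℝ} (hb : Below bc b) {j : ℕ → ℕ}
    {w : ℝ} (h : Tendsto (fun k => Real.sqrt (bc - b k) * (j k : ℝ)) atTop (𝓝 w)) :
    Scale bc L b (fun k => D0 * L ^ j k) w := by
  have hL0 : (0 : ℝ) < L := by exact_mod_cast (by omega : 0 < L)
  have hL1 : (1 : ℝ) < L := by exact_mod_cast (by omega : 1 < L)
  have hD : (0 : ℝ) < D0 := by exact_mod_cast (by omega : 0 < D0)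
  have h1 : Tendsto (fun k => Real.sqrt (bc - b k) * Real.logb L D0 + Real.sqrt (bc - b k) * (j k : ℝ))
      atTop (𝓝 (0 * Real.logb L D0 + w)) := (hb.tendsto_dl.mul_const _).add h
  rw [zero_mul, zero_add] at h1
  refine h1.congr fun k => ?_
  push_cast
  rw [Real.logb_mul hD.ne' (pow_pos hL0 _).ne', Real.logb_pow, Real.logb_self_eq_one hL1]
  ring

/-- a sequence at every non-negative scale. -/
theorem scale_ref (hL : 2 ≤ L) {D0 : ℕ} (hD0 : 1 ≤ D0) {b : ℕ → ℝ} (hb : Below bc b) {r : ℕ} (hr : 1 ≤ r)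
    {t : ℝ} (ht : 0 ≤ t) :
    Scale bc L b (fun k => D0 * L ^ (r * ⌊t / (Real.sqrt (bc - b k) * r)⌋₊)) t := by
  refine scale_pow hL hD0 hb ?_
  have hr' : (0 : ℝ) < r := by exact_mod_cast (by omega : 0 < r)
  refine (hb.floor_scale hr' ht).congr fun k => ?_
  push_cast
  ring

/-- comparable sizes have the same logarithmic scale. -/
theorem Scale.comparable (hL : 2 ≤ L) {b : ℕ → ℝ} (hb : Below bc b) {n m : ℕ → ℕ} {w : ℝ} (hw : 0 < w)
    (h : Scale bc L b n w) {c C : ℝ} (hc : 0 < c)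
    (hm : ∀ᶠ k in atTop, c * (n k : ℝ) ≤ m k ∧ (m k : ℝ) ≤ C * n k) : Scale bc L b m w := by
  have hL1 : (1 : ℝ) < L := by exact_mod_cast (by omega : 1 < L)
  have hn := h.size_atTop hL hb hw
  obtain ⟨B, hB⟩ : ∃ B : ℝ, B = max |Real.logb L c| |Real.logb L C| := ⟨_, rfl⟩
  have h0 : Tendsto (fun k => Real.sqrt (bc - b k) * B) atTop (𝓝 0) := by
    simpa using hb.tendsto_dl.mul_const B
  have h1 : Tendsto (fun k => Real.sqrt (bc - b k) * (Real.logb L (m k) - Real.logb L (n k))) atTop (𝓝 0) := by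
    refine squeeze_zero_norm' ?_ h0
    filter_upwards [hm, hn.eventually_ge_atTop 1] with k hk hk1
    have hnk : (0 : ℝ) < n k := by exact_mod_cast (by omega : 0 < n k)
    have hmk : (0 : ℝ) < m k := lt_of_lt_of_le (mul_pos hc hnk) hk.1
    have hC : 0 < C := by
      by_contra hcon
      push Not at hcon
      nlinarith [hk.2]
    have e1 : Real.logb L c + Real.logb L (n k) ≤ Real.logb L (m k) := by
      rw [← Real.logb_mul hc.ne' hnk.ne']
      exact Real.logb_le_logb_of_le hL1 (mul_pos hc hnk) hk.1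
    have e2 : Real.logb L (m k) ≤ Real.logb L C + Real.logb L (n k) := by
      rw [← Real.logb_mul hC.ne' hnk.ne']
      exact Real.logb_le_logb_of_le hL1 hmk hk.2
    rw [Real.norm_eq_abs, abs_mul, abs_of_pos (hb.pos k)]
    refine mul_le_mul_of_nonneg_left ?_ (hb.pos k).le
    rw [hB, abs_le]
    constructor
    · linarith [neg_abs_le (Real.logb L c), le_max_left |Real.logb L c| |Real.logb L C|]
    · linarith [le_abs_self (Real.logb L C), le_max_right |Real.logb L c| |Real.logb L C|]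
  have h2 := Tendsto.add h h1
  rw [add_zero] at h2
  refine h2.congr fun k => ?_
  ring

/-- eventually equal temperatures. -/
theorem Scale.congr_temp {b b' : ℕ → ℝ} {m : ℕ → ℕ} {w : ℝ} (h : Scale bc L b m w)
    (hbb : ∀ᶠ k in atTop, b k = b' k) : Scale bc L b' m w := by
  refine Tendsto.congr' ?_ h
  filter_upwards [hbb] with k hk
  rw [hk]

theorem CoefAt.congr_temp {a : ℝ → ℕ → ℝ} {b b' : ℕ → ℝ} {w α : ℝ} (h : CoefAt bc L a b w α)
    (hbb : ∀ᶠ k in atTop, b k = b' k) : CoefAt bc L a b' w α := by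
  intro m hm
  refine (h m (hm.congr_temp (hbb.mono fun k hk => hk.symm))).congr' ?_
  filter_upwards [hbb] with k hk
  rw [hk]

/-- truncation of the temperatures from below (changes finitely many terms). -/
theorem Below.truncate {b : ℕ → ℝ} (hb : Below bc b) {β : ℝ} (hβ : β < bc) :
    Below bc (fun k => max (b k) β) ∧ ∀ᶠ k in atTop, b k = max (b k) β := by
  have hev : ∀ᶠ k in atTop, b k = max (b k) β := by
    filter_upwards [hb.2.eventually (eventually_gt_nhds hβ)] with k hk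
    exact (max_eq_left hk.le).symm
  exact ⟨⟨fun k => max_lt (hb.1 k) hβ, hb.2.congr' hev⟩, hev⟩

end

end Claimed.Agent.R285.Glue.E5
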