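import Claimed.Agent.R285.Glue.E5a

/-!
# ROW 285, BP-GLUE-E510 (helper286): [E] Proposition 5.1 (extraction of the coefficient profile)   (pure analysis, no sorry)

Input `CoefHyp`: non-negativity, monotonicity in the temperature, the critical limit `a_m(b_c) → A`, the cut inequality [E] (5.2).
Output `profile_exists`: along a subsequence there is an antitone `𝒜 : ℝ → [0, A]` with `CoefAt … w (𝒜 w)` at every continuity point `w > 0`.
-/

namespace Claimed.Agent.R285.Glue.E5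

open Filter Topology

noncomputable section

/-- the inputs of [E] P5.1 on the structural coefficient `a_m(b)`. -/
structure CoefHyp (bc : ℝ) (L : ℕ) (A : ℝ) (a : ℝ → ℕ → ℝ) : Prop where
  hL : 2 ≤ L
  nonneg : ∀ᶠ x in 𝓝[<] bc, ∀ m, 0 ≤ a x m
  mono : ∀ᶠ x in 𝓝[<] bc, ∀ m, a x m ≤ a bc m
  crit : Tendsto (a bc) atTop (𝓝 A)
  cut : ∃ C : ℝ, ∀ᶠ x in 𝓝[<] bc, ∀ m M : ℕ, 1 ≤ m → m ≤ M →
    Real.sqrt (a x M) ≤ Real.sqrt (a x m) + C * Real.sqrt (1 / (m : ℝ) + (m : ℝ) / (M : ℝ))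

variable {bc : ℝ} {L : ℕ} {A : ℝ} {a : ℝ → ℕ → ℝ}

theorem CoefHyp.crit_nonneg (H : CoefHyp bc L A a) (m : ℕ) : 0 ≤ a bc m := by
  obtain ⟨x, h1, h2⟩ := (H.nonneg.and H.mono).exists
  exact (h1 m).trans (h2 m)

theorem CoefHyp.A_nonneg (H : CoefHyp bc L A a) : 0 ≤ A :=
  ge_of_tendsto' H.crit H.crit_nonneg

/-- [E] (5.2) along two scales `w < w'`. -/
theorem CoefHyp.cut_lim (H : CoefHyp bc L A a) {b : ℕ → ℝ} (hb : Below bc b) {m M : ℕ → ℕ} {w w' : ℝ}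
    (hw : 0 < w) (hww : w < w') (h : Scale bc L b m w) (h' : Scale bc L b M w') {ε : ℝ} (hε : 0 < ε) :
    ∀ᶠ k in atTop, Real.sqrt (a (b k) (M k)) ≤ Real.sqrt (a (b k) (m k)) + ε := by
  obtain ⟨C, hC⟩ := H.cut
  have hm := h.size_atTop H.hL hb hw
  have h1 : Tendsto (fun k => 1 / (m k : ℝ)) atTop (𝓝 0) :=
    tendsto_one_div_atTop_nhds_zero_nat.comp hm
  have h2 := h.ratio H.hL hb hw hww h'
  have h3 : Tendsto (fun k => C * Real.sqrt (1 / (m k : ℝ) + (m k : ℝ) / (M k : ℝ))) atTop (𝓝 0) := by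
    have h4 := (Real.continuous_sqrt.tendsto _).comp (h1.add h2)
    rw [add_zero, Real.sqrt_zero] at h4
    simpa using h4.const_mul C
  filter_upwards [hb.eventually hC, hm.eventually_ge_atTop 1, h.le_of_lt H.hL hb hw hww h',
    h3.eventually (eventually_lt_nhds hε)] with k hk1 hk2 hk3 hk4
  linarith [hk1 (m k) (M k) hk2 hk3]

/-- upper bound by the critical coefficient along a sequence of sizes tending to infinity. -/
theorem CoefHyp.limsup_le (H : CoefHyp bc L A a) {b : ℕ → ℝ} (hb : Below bc b) {m : ℕ → ℕ}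
    (hm : Tendsto m atTop atTop) {s : ℝ}
    (hs : Tendsto (fun k => Real.sqrt (a (b k) (m k))) atTop (𝓝 s)) : s ≤ Real.sqrt A := by
  have h1 : Tendsto (fun k => Real.sqrt (a bc (m k))) atTop (𝓝 (Real.sqrt A)) :=
    (Real.continuous_sqrt.tendsto _).comp (H.crit.comp hm)
  refine le_of_tendsto_of_tendsto hs h1 ?_
  filter_upwards [hb.eventually H.mono] with k hk
  exact Real.sqrt_le_sqrt (hk _)

/-- the reference sequence at the scale `q`. -/
def refS (bc : ℝ) (L : ℕ) (b : ℕ → ℝ) (q : ℝ) (k : ℕ) : ℕ :=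
  1 * L ^ (1 * ⌊q / (Real.sqrt (bc - b k) * ((1 : ℕ) : ℝ))⌋₊)

theorem refS_scale (hL : 2 ≤ L) {b : ℕ → ℝ} (hb : Below bc b) {q : ℝ} (hq : 0 ≤ q) :
    Scale bc L b (refS bc L b q) q :=
  scale_ref hL le_rfl hb le_rfl hq

/-- diagonal extraction (compactness of `ℚ → [0, C]`). -/
theorem CoefHyp.extract (H : CoefHyp bc L A a) {b : ℕ → ℝ} (hb : Below bc b) :
    ∃ φ : ℕ → ℕ, StrictMono φ ∧ ∃ σ : ℚ → ℝ, ∀ q : ℚ,
      Tendsto (fun k => Real.sqrt (a (b (φ k)) (refS bc L b q (φ k)))) atTop (𝓝 (σ q)) := by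
  obtain ⟨Cb, hCb⟩ := H.crit.bddAbove_range
  have hK : IsCompact (Set.pi Set.univ fun _ : ℚ => Set.Icc (0 : ℝ) (Real.sqrt Cb)) :=
    isCompact_univ_pi fun _ => isCompact_Icc
  have hmem : ∃ᶠ k in atTop, (fun q : ℚ => Real.sqrt (a (b k) (refS bc L b q k)))
      ∈ Set.pi Set.univ fun _ : ℚ => Set.Icc (0 : ℝ) (Real.sqrt Cb) := by
    refine Eventually.frequently ?_
    filter_upwards [hb.eventually H.mono] with k hk q _
    exact ⟨Real.sqrt_nonneg _, Real.sqrt_le_sqrt ((hk _).trans (hCb ⟨_, rfl⟩))⟩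
  obtain ⟨σ, -, φ, hφ, hσ⟩ := hK.tendsto_subseq' hmem
  exact ⟨φ, hφ, σ, fun q => (tendsto_pi_nhds.1 hσ q)⟩

/-- [E] Proposition 5.1. -/
theorem CoefHyp.profile_exists (H : CoefHyp bc L A a) {b : ℕ → ℝ} (hb : Below bc b) :
    ∃ φ : ℕ → ℕ, StrictMono φ ∧ ∃ 𝒜 : ℝ → ℝ, Antitone 𝒜 ∧ (∀ w, 0 ≤ 𝒜 w ∧ 𝒜 w ≤ A) ∧
      ∀ w, 0 < w → ContinuousAt 𝒜 w → CoefAt bc L a (fun k => b (φ k)) w (𝒜 w) := by
  obtain ⟨φ, hφ, σ, hσ⟩ := H.extract hb
  have hb' : Below bc (fun k => b (φ k)) := hb.comp hφ.tendsto_atTop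
  have href : ∀ q : ℚ, 0 < q → Scale bc L (fun k => b (φ k)) (fun k => refS bc L b q (φ k)) q :=
    fun q hq => (refS_scale H.hL hb (by exact_mod_cast hq.le)).comp hφ.tendsto_atTop
  have hσ0 : ∀ q, 0 ≤ σ q := fun q => ge_of_tendsto' (hσ q) fun k => Real.sqrt_nonneg _
  have hσA : ∀ q : ℚ, 0 < q → σ q ≤ Real.sqrt A := fun q hq =>
    H.limsup_le hb' ((href q hq).size_atTop H.hL hb' (by exact_mod_cast hq)) (hσ q)
  -- sandwich
  have hup : ∀ (q : ℚ) (w : ℝ) (m : ℕ → ℕ), 0 < q → (q : ℝ) < w → Scale bc L (fun k => b (φ k)) m w →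
      ∀ ε : ℝ, 0 < ε → ∀ᶠ k in atTop, Real.sqrt (a (b (φ k)) (m k)) ≤ σ q + ε := by
    intro q w m hq hqw hm ε hε
    filter_upwards [H.cut_lim hb' (by exact_mod_cast hq) hqw (href q hq) hm (half_pos hε),
      (hσ q).eventually (eventually_lt_nhds (lt_add_of_pos_right (σ q) (half_pos hε)))] with k h1 h2
    linarith
  have hlo : ∀ (q : ℚ) (w : ℝ) (m : ℕ → ℕ), 0 < w → w < (q : ℝ) → Scale bc L (fun k => b (φ k)) m w →
      ∀ ε : ℝ, 0 < ε → ∀ᶠ k in atTop, σ q - ε ≤ Real.sqrt (a (b (φ k)) (m k)) := by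
    intro q w m hw hqw hm ε hε
    have hq : 0 < q := by exact_mod_cast hw.trans hqw
    filter_upwards [H.cut_lim hb' hw hqw hm (href q hq) (half_pos hε),
      (hσ q).eventually (eventually_gt_nhds (sub_lt_self (σ q) (half_pos hε)))] with k h1 h2
    linarith
  have hanti : ∀ q q' : ℚ, 0 < q → q < q' → σ q' ≤ σ q := by
    intro q q' hq hqq
    refine le_of_forall_pos_le_add fun ε hε => ?_
    exact le_of_tendsto (hσ q') (hup q q' _ hq (by exact_mod_cast hqq) (href q' (hq.trans hqq)) ε hε)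
  -- the regularised profile
  set S : ℝ → Set ℝ := fun w => σ '' {q : ℚ | 0 < q ∧ w < (q : ℝ)} with hS
  have hSne : ∀ w, (S w).Nonempty := by
    intro w
    obtain ⟨q, hq⟩ := exists_rat_gt (max w 0)
    exact ⟨σ q, q, ⟨by exact_mod_cast (le_max_right w 0).trans_lt hq, (le_max_left w 0).trans_lt hq⟩, rfl⟩
  have hSbd : ∀ w, BddAbove (S w) := by
    intro w
    refine ⟨Real.sqrt A, ?_⟩
    rintro _ ⟨q, ⟨hq, -⟩, rfl⟩
    exact hσA q hq
  set 𝒮 : ℝ → ℝ := fun w => sSup (S w) with h𝒮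
  have h𝒮anti : Antitone 𝒮 := by
    intro w w' hww
    refine csSup_le_csSup (hSbd w) (hSne w') ?_
    rintro _ ⟨q, ⟨hq, hq'⟩, rfl⟩
    exact ⟨q, ⟨hq, hww.trans_lt hq'⟩, rfl⟩
  have h𝒮0 : ∀ w, 0 ≤ 𝒮 w := by
    intro w
    obtain ⟨_, q, hq, rfl⟩ := hSne w
    exact (hσ0 q).trans (le_csSup (hSbd w) ⟨q, hq, rfl⟩)
  have h𝒮A : ∀ w, 𝒮 w ≤ Real.sqrt A := by
    intro w
    refine csSup_le (hSne w) ?_
    rintro _ ⟨q, ⟨hq, -⟩, rfl⟩
    exact hσA q hq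
  have hle1 : ∀ (q : ℚ) (w : ℝ), 0 < q → w < (q : ℝ) → σ q ≤ 𝒮 w :=
    fun q w hq hw => le_csSup (hSbd w) ⟨q, ⟨hq, hw⟩, rfl⟩
  have hle2 : ∀ q : ℚ, 0 < q → 𝒮 q ≤ σ q := by
    intro q hq
    refine csSup_le (hSne _) ?_
    rintro _ ⟨q', ⟨-, hq'⟩, rfl⟩
    exact hanti q q' hq (by exact_mod_cast hq')
  -- convergence at continuity points
  have hconv : ∀ w, 0 < w → ContinuousAt 𝒮 w → ∀ m, Scale bc L (fun k => b (φ k)) m w →
      Tendsto (fun k => Real.sqrt (a (b (φ k)) (m k))) atTop (𝓝 (𝒮 w)) := by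
    intro w hw hc m hm
    rw [Metric.tendsto_atTop']
    intro ε hε
    obtain ⟨η, hη, hη'⟩ := Metric.continuousAt_iff.1 hc (ε / 2) (half_pos hε)
    -- a point on the left and a rational between
    obtain ⟨w1, hw1a, hw1b⟩ := exists_between (max_lt (sub_lt_self w hη) hw : max (w - η) 0 < w)
    obtain ⟨q1, hq1a, hq1b⟩ := exists_rat_btwn hw1b
    obtain ⟨q2, hq2a, hq2b⟩ := exists_rat_btwn (lt_add_of_pos_right w hη)
    have hq1pos : 0 < q1 := by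
      exact_mod_cast ((le_max_right (w - η) 0).trans_lt hw1a).trans hq1a
    have hq2pos : 0 < q2 := by exact_mod_cast hw.trans hq2a
    have e1 : σ q1 < 𝒮 w + ε / 2 := by
      have h1 := hη' (x := w1) (by
        rw [Real.dist_eq, abs_lt]
        constructor <;> linarith [(le_max_left (w - η) 0).trans_lt hw1a])
      rw [Real.dist_eq, abs_lt] at h1
      linarith [hle1 q1 w1 hq1pos hq1a, h1.2]
    have e2 : 𝒮 w - ε / 2 < σ q2 := by
      have h1 := hη' (x := (q2 : ℝ)) (by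
        rw [Real.dist_eq, abs_lt]
        constructor <;> linarith)
      rw [Real.dist_eq, abs_lt] at h1
      linarith [hle2 q2 hq2pos, h1.1]
    obtain ⟨N, hN⟩ := eventually_atTop.1 ((hup q1 w m hq1pos hq1b hm (ε / 4) (by linarith)).and
      (hlo q2 w m hw hq2a hm (ε / 4) (by linarith)))
    refine ⟨N, fun k hk => ?_⟩
    obtain ⟨h1, h2⟩ := hN k hk.le
    rw [Real.dist_eq, abs_lt]
    constructor <;> linarith
  refine ⟨φ, hφ, fun w => 𝒮 w ^ 2, ?_, ?_, ?_⟩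
  · intro w w' hww
    exact pow_le_pow_left₀ (h𝒮0 w') (h𝒮anti hww) 2
  · intro w
    refine ⟨sq_nonneg _, ?_⟩
    calc 𝒮 w ^ 2 ≤ Real.sqrt A ^ 2 := pow_le_pow_left₀ (h𝒮0 w) (h𝒮A w) 2
      _ = A := Real.sq_sqrt H.A_nonneg
  · intro w hw hc m hm
    have hc' : ContinuousAt 𝒮 w := by
      have := hc.sqrt
      refine this.congr (Eventually.of_forall fun x => ?_)
      exact Real.sqrt_sq (h𝒮0 x)
    refine ((hconv w hw hc' m hm).pow 2).congr' ?_
    filter_upwards [hb'.eventually H.nonneg] with k hk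
    exact Real.sq_sqrt (hk _)

end

end Claimed.Agent.R285.Glue.E5
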