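import Mathlib

/-!
# ROW 285, BP-GLUE-E510 (helper286): Fatou's lemma for Riemann sums on shrinking grids   (pure analysis, no sorry)

`fatou_cells`: let `d_k ↓ 0` be mesh sizes and `f k i` numbers attached to the cells `[d_k i, d_k (i+1))`.  If `f ≥ -K` on the cells
meeting `[u, v]` and, for almost every `t ∈ (u, v)`, eventually `f k ⌊t/d_k⌋ ≥ ℓ`, then
`liminf d_k ∑_{cells inside [u,v]} f k i ≥ ℓ (v - u)`.     This is (5.24) of [E].
-/

namespace Claimed.Agent.R285.Glue

open Filter Topology MeasureTheory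
open scoped ENNReal

theorem lintegral_step (d : ℝ) (s : Finset ℕ) (c : ℕ → ℝ≥0∞) :
    ∫⁻ t : ℝ, ∑ i ∈ s, (Set.Ico (d * (i : ℝ)) (d * ((i : ℝ) + 1))).indicator (fun _ => c i) t
      = ∑ i ∈ s, c i * ENNReal.ofReal d := by
  rw [lintegral_finsetSum s fun i _ => measurable_const.indicator measurableSet_Ico]
  refine Finset.sum_congr rfl fun i _ => ?_
  rw [lintegral_indicator_const measurableSet_Ico, Real.volume_Ico]
  congr 2
  ring

theorem fatou_cells {u v : ℝ} (hu : 0 ≤ u) (huv : u < v) {d : ℕ → ℝ} (hd : ∀ k, 0 < d k)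
    (hd0 : Tendsto d atTop (𝓝 0)) {f : ℕ → ℕ → ℝ} {K ℓ : ℝ} (hK : 0 ≤ K) (hℓ : 0 < ℓ)
    (hlow : ∀ᶠ k in atTop, ∀ i, ⌈u / d k⌉₊ ≤ i → -K ≤ f k i)
    (hgood : ∀ᵐ t : ℝ, t ∈ Set.Ioo u v → ∀ᶠ k in atTop, ℓ ≤ f k ⌊t / d k⌋₊)
    {ε : ℝ} (hε : 0 < ε) :
    ∀ᶠ k in atTop, ℓ * (v - u) - ε ≤ d k * ∑ i ∈ Finset.Ico ⌈u / d k⌉₊ ⌊v / d k⌋₊, f k i := by
  set F : ℕ → ℝ → ℝ≥0∞ := fun k t => ∑ i ∈ Finset.Ico ⌈u / d k⌉₊ ⌊v / d k⌋₊,
    (Set.Ico (d k * (i : ℝ)) (d k * ((i : ℝ) + 1))).indicator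
      (fun _ => ENNReal.ofReal (f k i + K)) t with hF
  have hFm : ∀ k, Measurable (F k) := fun k =>
    Finset.measurable_fun_sum _ fun i _ => measurable_const.indicator measurableSet_Ico
  -- the integrals
  have hint : ∀ᶠ k in atTop, ∫⁻ t, F k t
      ≤ ENNReal.ofReal (d k * ∑ i ∈ Finset.Ico ⌈u / d k⌉₊ ⌊v / d k⌋₊, f k i + K * (v - u)) := by
    filter_upwards [hlow] with k hk
    have h0 : ∀ i ∈ Finset.Ico ⌈u / d k⌉₊ ⌊v / d k⌋₊, 0 ≤ f k i + K := fun i hi => by
      linarith [hk i (Finset.mem_Ico.1 hi).1]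
    rw [hF]
    simp only
    rw [lintegral_step (d k), ← Finset.sum_mul, ← ENNReal.ofReal_sum_of_nonneg h0,
      ← ENNReal.ofReal_mul (Finset.sum_nonneg h0)]
    refine ENNReal.ofReal_le_ofReal ?_
    rw [Finset.sum_add_distrib, Finset.sum_const, Nat.card_Ico, nsmul_eq_mul, add_mul, mul_comm]
    have h1 : ((⌊v / d k⌋₊ - ⌈u / d k⌉₊ : ℕ) : ℝ) * d k ≤ v - u := by
      rcases le_total ⌈u / d k⌉₊ ⌊v / d k⌋₊ with h | h
      · rw [Nat.cast_sub h]
        have h2 := Nat.floor_le (div_nonneg (hu.trans huv.le) (hd k).le)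
        have h3 := Nat.le_ceil (u / d k)
        rw [le_div_iff₀ (hd k)] at h2
        rw [div_le_iff₀ (hd k)] at h3
        linarith
      · rw [Nat.sub_eq_zero_of_le h]
        simp only [Nat.cast_zero, zero_mul]
        linarith
    have h2 : ((⌊v / d k⌋₊ - ⌈u / d k⌉₊ : ℕ) : ℝ) * K * d k ≤ K * (v - u) := by
      calc ((⌊v / d k⌋₊ - ⌈u / d k⌉₊ : ℕ) : ℝ) * K * d k
          = K * (((⌊v / d k⌋₊ - ⌈u / d k⌉₊ : ℕ) : ℝ) * d k) := by ring
        _ ≤ K * (v - u) := mul_le_mul_of_nonneg_left h1 hK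
    linarith
  -- the pointwise lower bound
  have hpt : ∀ᵐ t : ℝ, (Set.Ioo u v).indicator (fun _ => ENNReal.ofReal (ℓ + K)) t
      ≤ liminf (fun k => F k t) atTop := by
    filter_upwards [hgood] with t ht
    by_cases htm : t ∈ Set.Ioo u v
    · rw [Set.indicator_of_mem htm]
      refine le_liminf_of_le (by isBoundedDefault) ?_
      have h1 : ∀ᶠ k in atTop, d k < min (t - u) (v - t) :=
        hd0.eventually (eventually_lt_nhds (lt_min (sub_pos.2 htm.1) (sub_pos.2 htm.2)))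
      filter_upwards [ht htm, h1] with k hk1 hk2
      have ht0 : 0 ≤ t := hu.trans htm.1.le
      have hfl := Nat.floor_le (div_nonneg ht0 (hd k).le)
      have hfl2 := Nat.lt_floor_add_one (t / d k)
      have hmem : ⌊t / d k⌋₊ ∈ Finset.Ico ⌈u / d k⌉₊ ⌊v / d k⌋₊ := by
        rw [Finset.mem_Ico]
        constructor
        · rw [Nat.ceil_le]
          have : u / d k + 1 ≤ t / d k := by
            rw [← sub_nonneg]
            have e : t / d k - (u / d k + 1) = (t - u - d k) / d k := by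
              have := (hd k).ne'
              field_simp
              ring
            rw [e]
            exact div_nonneg (by linarith [min_le_left (t - u) (v - t)]) (hd k).le
          linarith
        · rw [← Nat.add_one_le_iff, Nat.le_floor_iff (div_nonneg (hu.trans huv.le) (hd k).le)]
          have : t / d k + 1 ≤ v / d k := by
            rw [← sub_nonneg]
            have e : v / d k - (t / d k + 1) = (v - t - d k) / d k := by
              have := (hd k).ne'
              field_simp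
              ring
            rw [e]
            exact div_nonneg (by linarith [min_le_right (t - u) (v - t)]) (hd k).le
          push_cast
          linarith
      have hcell : t ∈ Set.Ico (d k * (⌊t / d k⌋₊ : ℝ)) (d k * ((⌊t / d k⌋₊ : ℝ) + 1)) := by
        rw [le_div_iff₀ (hd k)] at hfl
        rw [div_lt_iff₀ (hd k)] at hfl2
        constructor <;> linarith
      calc ENNReal.ofReal (ℓ + K) ≤ ENNReal.ofReal (f k ⌊t / d k⌋₊ + K) :=
            ENNReal.ofReal_le_ofReal (by linarith)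
        _ = (Set.Ico (d k * (⌊t / d k⌋₊ : ℝ)) (d k * ((⌊t / d k⌋₊ : ℝ) + 1))).indicator
              (fun _ => ENNReal.ofReal (f k ⌊t / d k⌋₊ + K)) t := by
              rw [Set.indicator_of_mem hcell]
        _ ≤ F k t := Finset.single_le_sum
              (f := fun i : ℕ => (Set.Ico (d k * (i : ℝ)) (d k * ((i : ℝ) + 1))).indicator
                (fun _ => ENNReal.ofReal (f k i + K)) t) (fun i _ => zero_le) hmem
    · rw [Set.indicator_of_notMem htm]
      exact zero_le
  -- Fatou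
  have hfat : ENNReal.ofReal ((ℓ + K) * (v - u))
      ≤ liminf (fun k => ENNReal.ofReal
          (d k * ∑ i ∈ Finset.Ico ⌈u / d k⌉₊ ⌊v / d k⌋₊, f k i + K * (v - u))) atTop := by
    calc ENNReal.ofReal ((ℓ + K) * (v - u))
        = ∫⁻ t, (Set.Ioo u v).indicator (fun _ => ENNReal.ofReal (ℓ + K)) t := by
          rw [lintegral_indicator_const measurableSet_Ioo, Real.volume_Ioo,
            ENNReal.ofReal_mul (by linarith)]
      _ ≤ ∫⁻ t, liminf (fun k => F k t) atTop := lintegral_mono_ae hpt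
      _ ≤ liminf (fun k => ∫⁻ t, F k t) atTop := lintegral_liminf_le hFm
      _ ≤ _ := liminf_le_liminf hint
  have hpos : 0 < (ℓ + K) * (v - u) := mul_pos (by linarith) (sub_pos.2 huv)
  have hlt : ENNReal.ofReal ((ℓ + K) * (v - u) - ε) < ENNReal.ofReal ((ℓ + K) * (v - u)) :=
    (ENNReal.ofReal_lt_ofReal_iff hpos).2 (by linarith)
  filter_upwards [eventually_lt_of_lt_liminf (hlt.trans_le hfat)] with k hk
  have := ENNReal.lt_ofReal_iff_toReal_lt (ENNReal.ofReal_ne_top) |>.1 hk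
  by_contra hcon
  push Not at hcon
  have h2 : d k * ∑ i ∈ Finset.Ico ⌈u / d k⌉₊ ⌊v / d k⌋₊, f k i + K * (v - u)
      ≤ (ℓ + K) * (v - u) - ε := by nlinarith
  exact absurd (ENNReal.ofReal_le_ofReal h2) (not_le.2 hk)

end Claimed.Agent.R285.Glue
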