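import Claimed.Agent.R285.Glue.E5b
import Claimed.Agent.R285.Glue.Fatou

/-!
# ROW 285, BP-GLUE-E510 (helper286): [E] P5.10, first part: no intermediate coefficient   (pure analysis, no sorry)

Input `PhaseHyp` = [E] L5.8 (relative growth of the face phase, sharp and rough form) + L5.9 (critical sub-exponential lower bound,
monotonicity in the temperature) for `z_m(b) = E^{free}_{B_m,b} exp(i (h, ρ_m^{sym}))`.  `e α = 2 - α/(4π)`, `A = 8π`.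
-/

namespace Claimed.Agent.R285.Glue.E5

open Filter Topology MeasureTheory

noncomputable section

/-- the inputs of [E] P5.10 on the four-face phase `z_m(b)`. -/
structure PhaseHyp (bc : ℝ) (L D0 : ℕ) (A : ℝ) (e : ℝ → ℝ) (a z : ℝ → ℕ → ℝ) : Prop where
  hD0 : 1 ≤ D0
  e_anti : Antitone e
  e_pos : ∀ α, α < A → 0 < e α
  pos : ∀ᶠ x in 𝓝[<] bc, ∀ m, 1 ≤ m → 0 < z x m
  le_one : ∀ᶠ x in 𝓝[<] bc, ∀ m, z x m ≤ 1
  mono : ∀ᶠ x in 𝓝[<] bc, ∀ m, z bc m ≤ z x m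
  crit_pos : ∀ m, 1 ≤ m → 0 < z bc m
  /-- [E] (5.22) -/
  sub : Tendsto (fun j : ℕ => -Real.log (z bc (D0 * L ^ j)) / (j : ℝ)) atTop (𝓝 0)
  /-- [E] (5.17) and (5.18) -/
  ratio : ∃ c : ℝ, 0 < c ∧ ∃ G0 : ℕ,
    (∀ G : ℕ, G0 ≤ G → ∀ b, Below bc b → ∀ w α, 0 < w → 0 < α → CoefAt bc L a b w α →
      ∀ m, Scale bc L b m w → ∀ c' : ℝ, c' < c * (G : ℝ) ^ e α →
        ∀ᶠ k in atTop, c' * z (b k) (m k) ≤ z (b k) (G * m k)) ∧
    (∀ G : ℕ, G0 ≤ G → ∃ cG : ℝ, 0 < cG ∧ ∃ m0 : ℕ,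
      ∀ᶠ x in 𝓝[<] bc, ∀ m, m0 ≤ m → cG * z x m ≤ z x (G * m))

variable {bc : ℝ} {L D0 : ℕ} {A : ℝ} {e : ℝ → ℝ} {a z : ℝ → ℕ → ℝ}

theorem sum_Ico_telescope_le {g : ℕ → ℝ} (hg : ∀ i, g i ≤ 0) (m n : ℕ) :
    ∑ i ∈ Finset.Ico m n, (g (i + 1) - g i) ≤ -g m := by
  rw [Finset.sum_Ico_eq_sum_range]
  have := Finset.sum_range_sub (fun i => g (m + i)) (n - m)
  simp only [add_zero] at this
  have e : ∑ i ∈ Finset.range (n - m), (g (m + i + 1) - g (m + i)) = g (m + (n - m)) - g m := by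
    rw [← this]
    rfl
  rw [e]
  linarith [hg (m + (n - m))]

/-- [E] P5.10, first part. -/
theorem PhaseHyp.no_intermediate (H : CoefHyp bc L A a) (P : PhaseHyp bc L D0 A e a z) {b : ℕ → ℝ}
    (hb : Below bc b) {𝒜 : ℝ → ℝ} (hanti : Antitone 𝒜)
    (hco : ∀ w, 0 < w → ContinuousAt 𝒜 w → CoefAt bc L a b w (𝒜 w))
    {u v η : ℝ} (hu : 0 < u) (huv : u < v) (hη : 0 < η)
    (hval : ∀ t ∈ Set.Ioo u v, η ≤ 𝒜 t ∧ 𝒜 t ≤ A - η) : False := by
  obtain ⟨c, hc, G0, hratio, hrough⟩ := P.ratio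
  have hL := H.hL
  have hLpos : 0 < L := by omega
  have he0 : 0 < e (A - η) := P.e_pos _ (by linarith)
  -- the stride
  obtain ⟨r, hr1, hrG, hr2⟩ : ∃ r : ℕ, 1 ≤ r ∧ G0 ≤ L ^ r ∧ 2 < c * ((L ^ r : ℕ) : ℝ) ^ e (A - η) := by
    have h1 : Tendsto (fun r : ℕ => L ^ r) atTop atTop :=
      tendsto_pow_atTop_atTop_of_one_lt (by omega)
    have h2 : Tendsto (fun r : ℕ => c * ((L ^ r : ℕ) : ℝ) ^ e (A - η)) atTop atTop :=
      ((tendsto_rpow_atTop he0).comp (tendsto_natCast_atTop_atTop.comp h1)).const_mul_atTop hc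
    obtain ⟨r, h⟩ := ((eventually_ge_atTop 1).and
      ((h1.eventually_ge_atTop G0).and (h2.eventually_gt_atTop 2))).exists
    exact ⟨r, h.1, h.2.1, h.2.2⟩
  obtain ⟨cG, hcG, m0, hrg⟩ := hrough (L ^ r) hrG
  have hr' : (0 : ℝ) < r := by exact_mod_cast (by omega : 0 < r)
  have hsz : ∀ i, 1 ≤ D0 * L ^ (r * i) := fun i =>
    Nat.mul_pos (by have := P.hD0; omega) (Nat.pow_pos hLpos)
  have hstep : ∀ i, D0 * L ^ (r * (i + 1)) = L ^ r * (D0 * L ^ (r * i)) := by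
    intro i
    rw [Nat.mul_succ, pow_add]
    ring
  obtain ⟨d, hd⟩ : ∃ d : ℕ → ℝ, d = fun k => Real.sqrt (bc - b k) * (r : ℝ) := ⟨_, rfl⟩
  obtain ⟨ζ, hζ⟩ : ∃ ζ : ℕ → ℕ → ℝ, ζ = fun k i => Real.log (z (b k) (D0 * L ^ (r * i))) := ⟨_, rfl⟩
  have hdpos : ∀ k, 0 < d k := fun k => by rw [hd]; exact mul_pos (hb.pos k) hr'
  have hd0 : Tendsto d atTop (𝓝 0) := by
    rw [hd]
    simpa using hb.tendsto_dl.mul_const (r : ℝ)
  have hud : Tendsto (fun k => u / d k) atTop atTop := by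
    have h1 : Tendsto (fun k => (u / r) * (Real.sqrt (bc - b k))⁻¹) atTop atTop :=
      hb.inv_atTop.const_mul_atTop (div_pos hu hr')
    refine h1.congr fun k => ?_
    rw [hd]
    have := (hb.pos k).ne'
    field_simp
  have hceil : Tendsto (fun k => ⌈u / d k⌉₊) atTop atTop := tendsto_nat_ceil_atTop.comp hud
  -- the lower bound on all cells
  have hlow : ∀ᶠ k in atTop, ∀ i, ⌈u / d k⌉₊ ≤ i → -|Real.log cG| ≤ ζ k (i + 1) - ζ k i := by
    filter_upwards [hb.eventually hrg, hb.eventually P.pos, hceil.eventually_ge_atTop m0]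
      with k hk1 hk2 hk3 i hi
    have hm : m0 ≤ D0 * L ^ (r * i) := by
      calc m0 ≤ i := hk3.trans hi
        _ ≤ L ^ i := (Nat.lt_pow_self (by omega)).le
        _ ≤ L ^ (r * i) := Nat.pow_le_pow_right hLpos (Nat.le_mul_of_pos_left _ (by omega))
        _ ≤ D0 * L ^ (r * i) := Nat.le_mul_of_pos_left _ (by have := P.hD0; omega)
    have h1 := hk1 _ hm
    have h2 := hk2 (D0 * L ^ (r * i)) (hsz i)
    have h3 : Real.log (cG * z (b k) (D0 * L ^ (r * i))) ≤ Real.log (z (b k) (L ^ r * (D0 * L ^ (r * i)))) :=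
      Real.log_le_log (mul_pos hcG h2) h1
    rw [Real.log_mul hcG.ne' h2.ne'] at h3
    rw [hζ]
    simp only
    rw [hstep]
    linarith [neg_abs_le (Real.log cG)]
  -- the good cells
  have hgood : ∀ᵐ t : ℝ, t ∈ Set.Ioo u v →
      ∀ᶠ k in atTop, Real.log 2 ≤ ζ k (⌊t / d k⌋₊ + 1) - ζ k ⌊t / d k⌋₊ := by
    filter_upwards [hanti.countable_not_continuousAt.ae_notMem volume] with t ht htm
    have hct : ContinuousAt 𝒜 t := by
      by_contra hcon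
      exact ht hcon
    have ht0 : 0 < t := hu.trans htm.1
    obtain ⟨hv1, hv2⟩ := hval t htm
    have hG1 : (1 : ℝ) ≤ ((L ^ r : ℕ) : ℝ) := by exact_mod_cast Nat.one_le_pow _ _ hLpos
    have hlt : 2 < c * ((L ^ r : ℕ) : ℝ) ^ e (𝒜 t) :=
      hr2.trans_le (mul_le_mul_of_nonneg_left
        (Real.rpow_le_rpow_of_exponent_le hG1 (P.e_anti hv2)) hc.le)
    have h1 := hratio (L ^ r) hrG b hb t (𝒜 t) ht0 (hη.trans_le hv1) (hco t ht0 hct) _
      (scale_ref hL P.hD0 hb hr1 ht0.le) 2 hlt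
    filter_upwards [h1, hb.eventually P.pos] with k hk1 hk2
    have h2 := hk2 (D0 * L ^ (r * ⌊t / (Real.sqrt (bc - b k) * (r : ℝ))⌋₊)) (hsz _)
    have h3 := Real.log_le_log (mul_pos two_pos h2) hk1
    rw [Real.log_mul two_ne_zero h2.ne'] at h3
    rw [hζ, hd]
    simp only
    rw [hstep]
    linarith
  have hlog2 : 0 < Real.log 2 := Real.log_pos one_lt_two
  have hε : 0 < Real.log 2 * (v - u) / 2 := by
    have := mul_pos hlog2 (sub_pos.2 huv)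
    linarith
  have hF := fatou_cells hu.le huv hdpos hd0 (f := fun k i => ζ k (i + 1) - ζ k i)
    (abs_nonneg (Real.log cG)) hlog2 hlow hgood hε
  -- the telescoping upper bound
  have hj : Tendsto (fun k => r * ⌈u / d k⌉₊) atTop atTop :=
    tendsto_atTop_mono (fun k => Nat.le_mul_of_pos_left _ (by omega)) hceil
  have hsub : Tendsto (fun k => (u + 1) * r * |(-Real.log (z bc (D0 * L ^ (r * ⌈u / d k⌉₊)))
      / ((r * ⌈u / d k⌉₊ : ℕ) : ℝ))|) atTop (𝓝 0) := by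
    have := ((P.sub.comp hj).abs.const_mul ((u + 1) * r))
    simpa using this
  obtain ⟨k, hk1, hk2, hk3, hk4, hk5, hk6, hk7⟩ := (hF.and ((hsub.eventually (eventually_lt_nhds hε)).and
    ((hb.eventually P.pos).and ((hb.eventually P.le_one).and ((hb.eventually P.mono).and
    ((hceil.eventually_ge_atTop 1).and (hd0.eventually (eventually_lt_nhds one_pos)))))))).exists
  have hζ0 : ∀ i, ζ k i ≤ 0 := fun i => by
    rw [hζ]
    exact Real.log_nonpos (hk3 _ (hsz i)).le (hk4 _)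
  have h1 : ∑ i ∈ Finset.Ico ⌈u / d k⌉₊ ⌊v / d k⌋₊, (ζ k (i + 1) - ζ k i) ≤ -ζ k ⌈u / d k⌉₊ :=
    sum_Ico_telescope_le hζ0 _ _
  have h2 : -ζ k ⌈u / d k⌉₊ ≤ -Real.log (z bc (D0 * L ^ (r * ⌈u / d k⌉₊))) := by
    rw [hζ]
    exact neg_le_neg (Real.log_le_log (P.crit_pos _ (hsz _)) (hk5 _))
  have hi : (0 : ℝ) < (⌈u / d k⌉₊ : ℝ) := by exact_mod_cast (by omega : 0 < ⌈u / d k⌉₊)
  have h3 : d k * (⌈u / d k⌉₊ : ℝ) ≤ u + 1 := by
    have := (Nat.ceil_lt_add_one (div_nonneg hu.le (hdpos k).le)).le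
    have h4 : d k * (⌈u / d k⌉₊ : ℝ) ≤ d k * (u / d k + 1) := mul_le_mul_of_nonneg_left this (hdpos k).le
    have h5 : d k * (u / d k + 1) = u + d k := by
      have := (hdpos k).ne'
      field_simp
    linarith
  set X : ℝ := -Real.log (z bc (D0 * L ^ (r * ⌈u / d k⌉₊))) with hX
  have h4 : d k * X ≤ (u + 1) * r * |X / ((r * ⌈u / d k⌉₊ : ℕ) : ℝ)| := by
    have e1 : d k * X = (d k * (⌈u / d k⌉₊ : ℝ)) * r * (X / ((r * ⌈u / d k⌉₊ : ℕ) : ℝ)) := by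
      push_cast
      field_simp
    rw [e1]
    calc (d k * (⌈u / d k⌉₊ : ℝ)) * r * (X / ((r * ⌈u / d k⌉₊ : ℕ) : ℝ))
        ≤ (d k * (⌈u / d k⌉₊ : ℝ)) * r * |X / ((r * ⌈u / d k⌉₊ : ℕ) : ℝ)| :=
          mul_le_mul_of_nonneg_left (le_abs_self _)
            (mul_nonneg (mul_nonneg (hdpos k).le hi.le) hr'.le)
      _ ≤ (u + 1) * r * |X / ((r * ⌈u / d k⌉₊ : ℕ) : ℝ)| :=
          mul_le_mul_of_nonneg_right (mul_le_mul_of_nonneg_right h3 hr'.le) (abs_nonneg _)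
  have h5 : d k * ∑ i ∈ Finset.Ico ⌈u / d k⌉₊ ⌊v / d k⌋₊, (ζ k (i + 1) - ζ k i) ≤ d k * X :=
    mul_le_mul_of_nonneg_left (h1.trans h2) (hdpos k).le
  linarith

end

end Claimed.Agent.R285.Glue.E5
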