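import Claimed.Agent.R285.Glue.Series

/-!
# ROW 285, BP-TOP (helper286): [F] Section 7 as PURE analysis (no model, no sorry)

`M : ℕ → ℝ` is the centre magnetisation `M_n`, `C : ℕ → ℝ` the bulk correlation, `g : ℕ → ℝ` the reference energy.

* `center_limit_of_increment`  : (7.1) with a conditionally convergent error  ⟹  `log M_{L^N} + ℓN/8 - log N/16` converges
* `increment_of_consecutive`   : [F] (6.2) + (6.3) + the trajectory asymptotics `t = 1/(2ℓN) + summable`  ⟹  (7.1)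
* `center_sq_powers`           : ⟹ `M_{L^N}² / ref(L^N) → β > 0`
* `center_sq_all`              : + the centre ratio of [F] P3.1 ⟹ `M_n² / ref(n) → β` along ALL integers
* `bulk_of_center`             : + the bulk ratio of [F] P3.1 ⟹ the statement of S0531
-/

namespace Claimed.Agent.R285.Glue

open Filter Topology

/-- the reference profile `r^{-1/4} (log r)^{1/8}` in the syntactic form of S0531. -/
noncomputable def gref (r : ℕ) : ℝ := (r : ℝ) ^ (-(1 : ℝ) / 4) * Real.log r ^ ((1 : ℝ) / 8)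

/-! ## 1. Summation -/

/-- (7.1) ⟹ convergence of the normalised logarithm. -/
theorem center_limit_of_increment {lM ρ : ℕ → ℝ} {ℓ : ℝ} (hρ : SerCvg ρ)
    (h : ∀ᶠ N : ℕ in atTop, lM (N + 1) - lM N = -ℓ / 8 + 1 / (16 * (N : ℝ)) + ρ N) :
    ∃ κ : ℝ, Tendsto (fun N : ℕ => lM N + ℓ * N / 8 - Real.log N / 16) atTop (𝓝 κ) := by
  refine SerCvg.tendsto ((SerCvg.harmonic_log.const_mul (1 / 16)).add hρ) ?_
  filter_upwards [h, eventually_ge_atTop 1] with N hN h1
  have hN' : (N : ℝ) ≠ 0 := by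
    have : (1 : ℝ) ≤ N := by exact_mod_cast h1
    linarith
  have e : lM (N + 1) = lM N + (-ℓ / 8 + 1 / (16 * (N : ℝ)) + ρ N) := by linarith
  rw [e]
  push_cast
  field_simp
  ring

/-- [F] (6.2), (6.3), (5.x) ⟹ (7.1): `a = 8π`, `t_N = 1/(2ℓN) + η_N`, `g_N = 2πℓN + c_N`. -/
theorem increment_of_consecutive {lM g t ε : ℕ → ℝ} {ℓ cG : ℝ} (hℓ : ℓ ≠ 0)
    (hg : Tendsto (fun N : ℕ => g N - 2 * Real.pi * ℓ * N) atTop (𝓝 cG))
    (ht : Summable (fun N : ℕ => t N - 1 / (2 * ℓ * (N : ℝ))))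
    (hε : SerCvg ε)
    (h : ∀ᶠ N : ℕ in atTop,
      lM (N + 1) - lM N = -((1 - t N) / (16 * Real.pi)) * (g (N + 1) - g N) + ε N) :
    ∃ ρ : ℕ → ℝ, SerCvg ρ ∧
      ∀ᶠ N : ℕ in atTop, lM (N + 1) - lM N = -ℓ / 8 + 1 / (16 * (N : ℝ)) + ρ N := by
  set c : ℕ → ℝ := fun N => g N - 2 * Real.pi * ℓ * N with hc
  set η : ℕ → ℝ := fun N => t N - 1 / (2 * ℓ * (N : ℝ)) with hη
  have hδ : Tendsto (fun N => c (N + 1) - c N) atTop (𝓝 (cG - cG)) :=
    (hg.comp (tendsto_add_atTop_nat 1)).sub hg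
  refine ⟨fun N => ℓ / 8 * η N + (-(1 / (16 * Real.pi))) * (c (N + 1) - c N)
      + 1 / (32 * Real.pi * ℓ) * ((c (N + 1) - c N) / (N : ℝ))
      + 1 / (16 * Real.pi) * (η N * (c (N + 1) - c N)) + ε N, ?_, ?_⟩
  · exact (((((SerCvg.of_summable ht).const_mul _).add ((SerCvg.telescope hg).const_mul _)).add
      ((SerCvg.abel hg).const_mul _)).add
      ((SerCvg.of_summable (summable_mul_of_tendsto ht hδ)).const_mul _)).add hε
  · filter_upwards [h, eventually_ge_atTop 1] with N hN h1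
    have hN' : (N : ℝ) ≠ 0 := by
      have : (1 : ℝ) ≤ N := by exact_mod_cast h1
      linarith
    have hpi : Real.pi ≠ 0 := Real.pi_ne_zero
    rw [hN]
    simp only [hc, hη]
    push_cast
    field_simp
    ring

/-! ## 2. The powers of `L` -/

theorem gref_pow {L : ℕ} (hL : 2 ≤ L) {N : ℕ} (hN : 1 ≤ N) :
    gref (L ^ N) = Real.exp (-(Real.log L * N / 4) + Real.log N / 8) * Real.log L ^ ((1 : ℝ) / 8) := by
  have hL' : (0 : ℝ) < L := by exact_mod_cast (by omega : 0 < L)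
  have hL1 : (1 : ℝ) < L := by exact_mod_cast (by omega : 1 < L)
  have hN' : (0 : ℝ) < N := by exact_mod_cast (by omega : 0 < N)
  have hlog : 0 < Real.log L := Real.log_pos hL1
  unfold gref
  push_cast
  rw [Real.log_pow, Real.mul_rpow hN'.le hlog.le, Real.exp_add, ← mul_assoc]
  congr 2
  · rw [← Real.rpow_natCast, ← Real.rpow_mul hL'.le, Real.rpow_def_of_pos hL']
    congr 1; ring
  · rw [Real.rpow_def_of_pos hN']
    congr 1; ring

/-- `M_{L^N}² / ref(L^N) → e^{2κ} ℓ^{-1/8}`.  `Real.log` of a possibly non-positive number is harmless: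
the convergence forces `M_{L^N} ≠ 0` and `M² = exp (2 log |M|)`. -/
theorem center_sq_powers {M : ℕ → ℝ} {L : ℕ} (hL : 2 ≤ L) {κ : ℝ}
    (h : Tendsto (fun N : ℕ => Real.log (M (L ^ N)) + Real.log L * N / 8 - Real.log N / 16) atTop (𝓝 κ)) :
    Tendsto (fun N : ℕ => M (L ^ N) ^ 2 / gref (L ^ N)) atTop
      (𝓝 (Real.exp (2 * κ) / Real.log L ^ ((1 : ℝ) / 8))) := by
  have hL1 : (1 : ℝ) < L := by exact_mod_cast (by omega : 1 < L)
  have hL2 : (2 : ℝ) ≤ L := by exact_mod_cast hL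
  have hlog : 0 < Real.log L := Real.log_pos hL1
  have hlog2 : (1 : ℝ) / 2 < Real.log L := by
    have h1 : Real.log 2 ≤ Real.log L := Real.log_le_log (by norm_num) hL2
    have h2 := Real.log_two_gt_d9
    linarith
  -- eventually `M (L^N) ≠ 0`
  have hne : ∀ᶠ N : ℕ in atTop, M (L ^ N) ≠ 0 := by
    have h1 : ∀ᶠ N : ℕ in atTop,
        Real.log (M (L ^ N)) + Real.log L * N / 8 - Real.log N / 16 < κ + 1 :=
      h.eventually (eventually_lt_nhds (lt_add_one κ))
    have h2 : Tendsto (fun N : ℕ => (Real.log L / 8 - 1 / 16) * (N : ℝ)) atTop atTop :=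
      tendsto_natCast_atTop_atTop.const_mul_atTop (by linarith)
    filter_upwards [h1, h2.eventually_ge_atTop (κ + 1), eventually_ge_atTop 1] with N hN1 hN2 hN3 h0
    have hN' : (0 : ℝ) < N := by exact_mod_cast (by omega : 0 < N)
    rw [h0, Real.log_zero] at hN1
    have := Real.log_le_sub_one_of_pos hN'
    nlinarith
  have h3 : Tendsto (fun N : ℕ => Real.exp (2 * (Real.log (M (L ^ N)) + Real.log L * N / 8
      - Real.log N / 16)) / Real.log L ^ ((1 : ℝ) / 8)) atTop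
      (𝓝 (Real.exp (2 * κ) / Real.log L ^ ((1 : ℝ) / 8))) :=
    ((Real.continuous_exp.tendsto _).comp (h.const_mul 2)).div_const _
  refine h3.congr' ?_
  filter_upwards [hne, eventually_ge_atTop 1] with N hN h1
  rw [gref_pow hL h1]
  have e1 : M (L ^ N) ^ 2 = Real.exp (2 * Real.log (M (L ^ N))) := by
    rw [two_mul, Real.exp_add, Real.exp_log_eq_abs hN, ← sq, sq_abs]
  rw [e1, ← div_div, ← Real.exp_sub]
  congr 2
  ring

/-! ## 3. All integers -/

/-- ratio of the reference profile along comparable sequences. -/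
theorem gref_ratio {d : ℝ} (hd : 0 < d) {n n' : ℕ → ℕ} (h1 : Tendsto n atTop atTop)
    (h2 : Tendsto (fun k => (n' k : ℝ) / n k) atTop (𝓝 d)) :
    Tendsto (fun k => gref (n' k) / gref (n k)) atTop (𝓝 (d ^ (-(1 : ℝ) / 4))) := by
  have hlogn : Tendsto (fun k => Real.log (n k)) atTop atTop :=
    Real.tendsto_log_atTop.comp (tendsto_natCast_atTop_atTop.comp h1)
  have hq : ∀ᶠ k in atTop, 0 < (n' k : ℝ) / n k := h2.eventually (eventually_gt_nhds hd)
  have hA : Tendsto (fun k => ((n' k : ℝ) / n k) ^ (-(1 : ℝ) / 4)) atTop (𝓝 (d ^ (-(1 : ℝ) / 4))) :=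
    h2.rpow_const (Or.inl hd.ne')
  have hB0 : Tendsto (fun k => 1 + Real.log ((n' k : ℝ) / n k) / Real.log (n k)) atTop (𝓝 (1 + 0)) :=
    tendsto_const_nhds.add (((Real.continuousAt_log hd.ne').tendsto.comp h2).div_atTop hlogn)
  have hB : Tendsto (fun k => (1 + Real.log ((n' k : ℝ) / n k) / Real.log (n k)) ^ ((1 : ℝ) / 8)) atTop
      (𝓝 ((1 + 0) ^ ((1 : ℝ) / 8))) := hB0.rpow_const (Or.inl (by norm_num))
  have hAB := hA.mul hB
  rw [add_zero, Real.one_rpow, mul_one] at hAB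
  refine hAB.congr' ?_
  filter_upwards [hq, h1.eventually_ge_atTop 2, hlogn.eventually_gt_atTop 0,
    hB0.eventually (eventually_gt_nhds (show (0 : ℝ) < 1 + 0 by norm_num))] with k hk hk2 hk3 hk4
  have hn : (0 : ℝ) < n k := by exact_mod_cast (by omega : 0 < n k)
  have hn' : (0 : ℝ) < n' k := by
    rcases (Nat.cast_nonneg (n' k) : (0 : ℝ) ≤ n' k).lt_or_eq with h | h
    · exact h
    · rw [← h, zero_div] at hk; exact absurd hk (lt_irrefl _)
  have e1 : 1 + Real.log ((n' k : ℝ) / n k) / Real.log (n k) = Real.log (n' k) / Real.log (n k) := by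
    rw [Real.log_div hn'.ne' hn.ne']
    field_simp
    ring
  have hln' : 0 ≤ Real.log (n' k) := by
    rw [e1] at hk4
    exact ((div_pos_iff_of_pos_right hk3).1 hk4).le
  unfold gref
  rw [e1, Real.div_rpow hn'.le hn.le, Real.div_rpow hln' hk3.le]
  field_simp

/-- [F] Section 7, the subsequence argument. -/
theorem center_sq_all {M : ℕ → ℝ} {L : ℕ} (hL : 2 ≤ L) {β : ℝ} (hβ : 0 < β)
    (hpow : Tendsto (fun N : ℕ => M (L ^ N) ^ 2 / gref (L ^ N)) atTop (𝓝 β))
    (hgeo : ∀ (d : ℝ), 0 < d → ∀ n n' : ℕ → ℕ, Tendsto n atTop atTop →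
      Tendsto (fun k => (n' k : ℝ) / n k) atTop (𝓝 d) →
      Tendsto (fun k => M (n' k) / M (n k)) atTop (𝓝 (d ^ (-(1 / 8) : ℝ)))) :
    Tendsto (fun n : ℕ => M n ^ 2 / gref n) atTop (𝓝 β) := by
  have hL1 : 1 < L := by omega
  have hL0 : (0 : ℝ) < L := by exact_mod_cast (by omega : 0 < L)
  refine tendsto_of_subseq_tendsto fun ns hns => ?_
  -- the ratios `ns k / L^{⌊log_L ns k⌋}` live in `[0, L]`
  have hmem : ∀ k, (ns k : ℝ) / ((L ^ Nat.log L (ns k) : ℕ) : ℝ) ∈ Set.Icc (0 : ℝ) L := by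
    intro k
    have hp : (0 : ℝ) < ((L ^ Nat.log L (ns k) : ℕ) : ℝ) := by
      exact_mod_cast Nat.pow_pos (by omega : 0 < L)
    refine ⟨by positivity, ?_⟩
    rw [div_le_iff₀ hp]
    have := (Nat.lt_pow_succ_log_self hL1 (ns k)).le
    rw [pow_succ, mul_comm] at this
    exact_mod_cast this
  obtain ⟨d, -, φ, hφ, hd⟩ := isCompact_Icc.tendsto_subseq hmem
  have hnφ : Tendsto (fun k => ns (φ k)) atTop atTop := hns.comp hφ.tendsto_atTop
  have hd1 : 1 ≤ d := by
    refine ge_of_tendsto hd ?_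
    filter_upwards [hnφ.eventually_ge_atTop 1] with k hk
    have hp : (0 : ℝ) < ((L ^ Nat.log L (ns (φ k)) : ℕ) : ℝ) := by
      exact_mod_cast Nat.pow_pos (by omega : 0 < L)
    simp only [Function.comp]
    rw [le_div_iff₀ hp, one_mul]
    exact_mod_cast Nat.pow_log_le_self L (by omega)
  have hd0 : 0 < d := by linarith
  have hN : Tendsto (fun k => Nat.log L (ns (φ k))) atTop atTop := by
    refine tendsto_atTop.2 fun b => ?_
    filter_upwards [hnφ.eventually_ge_atTop (L ^ b)] with k hk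
    calc b = Nat.log L (L ^ b) := (Nat.log_pow hL1 b).symm
      _ ≤ _ := Nat.log_mono_right hk
  have hn : Tendsto (fun k => L ^ Nat.log L (ns (φ k))) atTop atTop :=
    (tendsto_pow_atTop_atTop_of_one_lt hL1).comp hN
  refine ⟨φ, ?_⟩
  have hM := hgeo d hd0 (fun k => L ^ Nat.log L (ns (φ k))) (fun k => ns (φ k)) hn hd
  have hG := gref_ratio hd0 hn hd
  have hP : Tendsto (fun k => M (L ^ Nat.log L (ns (φ k))) ^ 2 / gref (L ^ Nat.log L (ns (φ k)))) atTop (𝓝 β) :=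
    hpow.comp hN
  have hdpos : 0 < d ^ (-(1 : ℝ) / 4) := Real.rpow_pos_of_pos hd0 _
  have hall := ((hM.pow 2).mul hP).div hG hdpos.ne'
  have e : (d ^ (-(1 / 8) : ℝ)) ^ 2 * β / d ^ (-(1 : ℝ) / 4) = β := by
    have : (d ^ (-(1 / 8) : ℝ)) ^ 2 = d ^ (-(1 : ℝ) / 4) := by
      rw [← Real.rpow_natCast, ← Real.rpow_mul hd0.le]; norm_num
    rw [this]; field_simp
  rw [e] at hall
  refine hall.congr' ?_
  filter_upwards [hP.eventually (eventually_gt_nhds hβ), hG.eventually (eventually_gt_nhds hdpos)]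
    with k hk1 hk2
  have hg0 : gref (L ^ Nat.log L (ns (φ k))) ≠ 0 := by
    intro h0; rw [h0, div_zero] at hk1; exact lt_irrefl _ hk1
  have hM0 : M (L ^ Nat.log L (ns (φ k))) ≠ 0 := by
    intro h0; rw [h0] at hk1; simp at hk1
  have hg1 : gref (ns (φ k)) ≠ 0 := by
    intro h0; rw [h0, zero_div] at hk2; exact lt_irrefl _ hk2
  simp only [Pi.div_apply]
  field_simp

/-! ## 4. The bulk correlation -/

theorem bulk_of_center {M C : ℕ → ℝ} {β c : ℝ} (hβ : 0 < β)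
    (hM : Tendsto (fun n : ℕ => M n ^ 2 / gref n) atTop (𝓝 β))
    (hC : Tendsto (fun r : ℕ => C r / M r ^ 2) atTop (𝓝 c)) :
    Tendsto (fun r : ℕ => C r / ((r : ℝ) ^ (-(1 : ℝ) / 4) * Real.log r ^ ((1 : ℝ) / 8))) atTop
      (𝓝 (c * β)) := by
  refine (hC.mul hM).congr' ?_
  filter_upwards [hM.eventually (eventually_gt_nhds hβ)] with r hr
  have hM0 : M r ≠ 0 := by
    intro h0; rw [h0] at hr; simp at hr
  change C r / M r ^ 2 * (M r ^ 2 / gref r) = C r / gref r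
  field_simp

/-- [F] Section 7 complete: the statement of S0531 from three inputs. -/
theorem s0531_of {M C : ℕ → ℝ} {L : ℕ} (hL : 2 ≤ L) {κ c : ℝ} (hc : 0 < c)
    (hcen : Tendsto (fun N : ℕ => Real.log (M (L ^ N)) + Real.log L * N / 8 - Real.log N / 16) atTop (𝓝 κ))
    (hgeo : ∀ (d : ℝ), 0 < d → ∀ n n' : ℕ → ℕ, Tendsto n atTop atTop →
      Tendsto (fun k => (n' k : ℝ) / n k) atTop (𝓝 d) →
      Tendsto (fun k => M (n' k) / M (n k)) atTop (𝓝 (d ^ (-(1 / 8) : ℝ))))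
    (hbulk : Tendsto (fun r : ℕ => C r / M r ^ 2) atTop (𝓝 c)) :
    ∃ B : ℝ, 0 < B ∧
      Tendsto (fun r : ℕ => C r / ((r : ℝ) ^ (-(1 : ℝ) / 4) * Real.log r ^ ((1 : ℝ) / 8))) atTop (𝓝 B) := by
  have hL1 : (1 : ℝ) < L := by exact_mod_cast (by omega : 1 < L)
  have hβ : 0 < Real.exp (2 * κ) / Real.log L ^ ((1 : ℝ) / 8) :=
    div_pos (Real.exp_pos _) (Real.rpow_pos_of_pos (Real.log_pos hL1) _)
  exact ⟨_, mul_pos hc hβ, bulk_of_center hβ (center_sq_all hL hβ (center_sq_powers hL hcen) hgeo) hbulk⟩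

end Claimed.Agent.R285.Glue
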