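import Mathlib

/-!
# ROW 285, BP-TOP (helper286): conditionally convergent series, for the summation of [F] Section 7

`SerCvg ρ` : `ρ` is eventually the increment of a convergent sequence (= the series `∑ ρ_N` converges, possibly
only conditionally).  [F] (7.1) contains the terms `(c_{N+1} - c_N)` and `(c_{N+1} - c_N)/N` with `c_N` only convergent;
they are NOT absolutely summable a priori, so `Summable` is the wrong notion for the contract `center_increment`.

Everything here is proved (no sorry).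
-/

namespace Claimed.Agent.R285.Glue

open Filter Topology

/-- `ρ` is eventually the increment of a convergent real sequence. -/
def SerCvg (ρ : ℕ → ℝ) : Prop :=
  ∃ u : ℕ → ℝ, (∃ l : ℝ, Tendsto u atTop (𝓝 l)) ∧ ∀ᶠ N : ℕ in atTop, u (N + 1) - u N = ρ N

theorem SerCvg.add {ρ σ : ℕ → ℝ} (h1 : SerCvg ρ) (h2 : SerCvg σ) : SerCvg (fun N => ρ N + σ N) := by
  obtain ⟨u, ⟨l, hl⟩, hu⟩ := h1
  obtain ⟨v, ⟨m, hm⟩, hv⟩ := h2
  refine ⟨fun N => u N + v N, ⟨l + m, hl.add hm⟩, ?_⟩
  filter_upwards [hu, hv] with N h1 h2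
  rw [← h1, ← h2]; ring

theorem SerCvg.const_mul {ρ : ℕ → ℝ} (a : ℝ) (h1 : SerCvg ρ) : SerCvg (fun N => a * ρ N) := by
  obtain ⟨u, ⟨l, hl⟩, hu⟩ := h1
  refine ⟨fun N => a * u N, ⟨a * l, hl.const_mul a⟩, ?_⟩
  filter_upwards [hu] with N h1
  rw [← h1]; ring

theorem SerCvg.congr {ρ σ : ℕ → ℝ} (h1 : SerCvg ρ) (h : ∀ᶠ N : ℕ in atTop, ρ N = σ N) : SerCvg σ := by
  obtain ⟨u, hl, hu⟩ := h1
  refine ⟨u, hl, ?_⟩
  filter_upwards [hu, h] with N h1 h2
  rw [h1, h2]

theorem SerCvg.of_summable {ρ : ℕ → ℝ} (h : Summable ρ) : SerCvg ρ :=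
  ⟨fun N => ∑ k ∈ Finset.range N, ρ k, ⟨_, h.hasSum.tendsto_sum_nat⟩,
    Eventually.of_forall fun N => by simp only [Finset.sum_range_succ]; ring⟩

theorem SerCvg.telescope {c : ℕ → ℝ} {l : ℝ} (h : Tendsto c atTop (𝓝 l)) :
    SerCvg (fun N => c (N + 1) - c N) :=
  ⟨c, ⟨l, h⟩, Eventually.of_forall fun _ => rfl⟩

/-- a sequence whose increments form a convergent series converges. -/
theorem SerCvg.tendsto {ρ x : ℕ → ℝ} (h : SerCvg ρ) (hx : ∀ᶠ N : ℕ in atTop, x (N + 1) - x N = ρ N) :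
    ∃ l : ℝ, Tendsto x atTop (𝓝 l) := by
  obtain ⟨u, ⟨l, hl⟩, hu⟩ := h
  obtain ⟨N0, hN0⟩ := eventually_atTop.1 (hu.and hx)
  have hc : ∀ N, N0 ≤ N → x N - u N = x N0 - u N0 := by
    intro N hN
    induction N, hN using Nat.le_induction with
    | base => rfl
    | succ N hN ih =>
      have := hN0 N hN
      linarith [this.1, this.2]
  refine ⟨l + (x N0 - u N0), ?_⟩
  have h2 : Tendsto (fun N => u N + (x N0 - u N0)) atTop (𝓝 (l + (x N0 - u N0))) := hl.add_const _
  refine h2.congr' ?_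
  filter_upwards [eventually_ge_atTop N0] with N hN
  linarith [hc N hN]

/-- a summable sequence times a sequence tending to a limit is summable. -/
theorem summable_mul_of_tendsto {η δ : ℕ → ℝ} {l : ℝ} (h : Summable η) (hδ : Tendsto δ atTop (𝓝 l)) :
    Summable (fun N => η N * δ N) := by
  have hb : ∀ᶠ N in atTop, |δ N| ≤ |l| + 1 := by
    have : Tendsto (fun N => |δ N|) atTop (𝓝 |l|) := hδ.abs
    exact (this.eventually (eventually_lt_nhds (lt_add_one |l|))).mono fun N h => h.le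
  refine Summable.of_norm_bounded_eventually_nat (g := fun N => |η N| * (|l| + 1))
    (h.abs.mul_right _) ?_
  filter_upwards [hb] with N hN
  rw [Real.norm_eq_abs, abs_mul]
  exact mul_le_mul_of_nonneg_left hN (abs_nonneg _)

/-- summation by parts, [F] Section 7: no bounded variation of `c` is needed. -/
theorem SerCvg.abel {c : ℕ → ℝ} {l : ℝ} (h : Tendsto c atTop (𝓝 l)) :
    SerCvg (fun N => (c (N + 1) - c N) / (N : ℝ)) := by
  -- `a_N = c_N/(N-1)` tends to zero
  have ha : Tendsto (fun N : ℕ => c N / ((N : ℝ) - 1)) atTop (𝓝 0) := by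
    have h1 : Tendsto (fun N : ℕ => ((N : ℝ) - 1)) atTop atTop :=
      tendsto_atTop_add_const_right _ _ tendsto_natCast_atTop_atTop
    exact h.div_atTop h1
  have hs : Summable (fun N : ℕ => (1 / ((N : ℝ) * ((N : ℝ) - 1))) * c N) := by
    refine summable_mul_of_tendsto ?_ h
    have h2 : Summable (fun N : ℕ => 2 * (1 / (N : ℝ) ^ 2)) :=
      (Real.summable_one_div_nat_pow.2 (by norm_num)).mul_left 2
    refine Summable.of_norm_bounded_eventually_nat h2 ?_
    filter_upwards [eventually_ge_atTop 2] with N hN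
    have hN' : (2 : ℝ) ≤ N := by exact_mod_cast hN
    have hpos : 0 < (N : ℝ) * ((N : ℝ) - 1) := by nlinarith
    rw [Real.norm_eq_abs, abs_of_pos (by positivity)]
    rw [mul_one_div, div_le_div_iff₀ hpos (by positivity)]
    nlinarith
  refine ((SerCvg.telescope ha).add (SerCvg.of_summable hs)).congr ?_
  filter_upwards [eventually_ge_atTop 2] with N hN
  have hN' : (2 : ℝ) ≤ N := by exact_mod_cast hN
  have h1 : (N : ℝ) ≠ 0 := by linarith
  have h2 : (N : ℝ) - 1 ≠ 0 := by linarith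
  push_cast
  rw [add_sub_cancel_right]
  field_simp
  ring

/-- `∑ (1/N - log((N+1)/N))` converges (Euler's constant). -/
theorem SerCvg.harmonic_log :
    SerCvg (fun N : ℕ => 1 / (N : ℝ) - (Real.log ((N : ℝ) + 1) - Real.log N)) := by
  refine ⟨fun N : ℕ => ((harmonic N : ℚ) : ℝ) - Real.log N - 1 / (N : ℝ),
    ⟨Real.eulerMascheroniConstant - 0, ?_⟩, ?_⟩
  · exact Real.tendsto_harmonic_sub_log.sub tendsto_one_div_atTop_nhds_zero_nat
  · filter_upwards [eventually_ge_atTop 1] with N hN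
    rw [harmonic_succ]
    push_cast
    ring

/-- `log N / N²` is summable; hence every `η` with `|η_N| ≤ C log N / N²` eventually. -/
theorem summable_of_log_div_sq {η : ℕ → ℝ} {C : ℝ}
    (h : ∀ᶠ N : ℕ in atTop, |η N| ≤ C * Real.log N / (N : ℝ) ^ 2) : Summable η := by
  have h2 : Summable (fun N : ℕ => |C| * 2 * (N : ℝ) ^ (-(3 / 2) : ℝ)) :=
    (Real.summable_nat_rpow.2 (by norm_num)).mul_left _
  refine Summable.of_norm_bounded_eventually_nat h2 ?_
  filter_upwards [h, eventually_ge_atTop 1] with N hN h1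
  have hN' : (1 : ℝ) ≤ N := by exact_mod_cast h1
  have hpos : (0 : ℝ) < N := by linarith
  rw [Real.norm_eq_abs]
  refine hN.trans ?_
  have hlog : Real.log N ≤ 2 * (N : ℝ) ^ ((1 : ℝ) / 2) := by
    have := Real.log_le_rpow_div hpos.le (show (0 : ℝ) < 1 / 2 by norm_num)
    linarith
  have hlog0 : 0 ≤ Real.log N := Real.log_nonneg hN'
  have e1 : (N : ℝ) ^ (-(3 / 2) : ℝ) = (N : ℝ) ^ ((1 : ℝ) / 2) / (N : ℝ) ^ 2 := by
    rw [← Real.rpow_natCast, ← Real.rpow_sub hpos]; norm_num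
  rw [e1, ← mul_div_assoc]
  refine div_le_div_of_nonneg_right ?_ (by positivity)
  calc C * Real.log N ≤ |C| * Real.log N := mul_le_mul_of_nonneg_right (le_abs_self C) hlog0
    _ ≤ |C| * (2 * (N : ℝ) ^ ((1 : ℝ) / 2)) := mul_le_mul_of_nonneg_left hlog (abs_nonneg C)
    _ = |C| * 2 * (N : ℝ) ^ ((1 : ℝ) / 2) := by ring

end Claimed.Agent.R285.Glue
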