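import Claimed.Agent.R285.Top
import Claimed.Agent.R285.Glue.F7
import Claimed.Agent.R285.Glue.E5Link
import Claimed.Prelude.Def_0460

/-!
# ROW 285 (helper286, GLUE): S0531 and S0532 from the contracts of `Top.lean`, `TopC.lean`, `TopXY.lean`

NO sorry in this file.  The table "contract -> producer" is in the headers of the three Top files.  At the end of the run
`Claimed/Agent/S0531.lean` := `Glue.s0531_glued`, `Claimed/Agent/S0532.lean` := `Glue.s0532_glued` (one line each).

OPEN AT THE TOP (7 + the sorries inside the linked producers):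
  TopXY: `xy_bkt_phase` (BC).   TopC: `mass_zero_of_coef` (C4), `aLim_open` (C5).
  Top: `passage` (DYN), `torus_limit` (MASS/PINS), `mass_of_profile` (MASS), `center_consecutive` (OBS+DYN).

History of the verdicts on the first Top.lean (13:35Z): `center_increment` with `Summable ρ` was stronger than [F] (7.1) (the error is only conditionally
summable) -> replaced by `green_constant` + `center_consecutive`; no contract produced `ProfileStep` -> now PROVED from `passage`, `torus_limit` and the FREE contracts;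
clause 3 of `passage` (torus mean phase) was a misreading of [E] L5.9 (free four-face phase) -> removed, L5.9 is derived from `C2.face_ratio`.
-/

set_option autoImplicit false

namespace Claimed.Agent.R285.Glue

open MeasureTheory Filter Topology Claims.C0459

noncomputable section

/-! ## 0. The two frozen copies of the definitions agree -/

theorem xyMass_bridge : Claims.C0460.xyMass = Claims.C0459.xyMass := rfl

theorem xyCritical_bridge : Claims.C0460.xyCritical = Claims.C0459.xyCritical := rfl

/-! ## 1. [E] Section 5: the profile -/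

theorem torusHyp {L D0 : ℕ} {T : ℝ} (hL : 2 ≤ L) (hT : 0 < T) (hP : E4.PassageConcl L D0 T) :
    E5.TorusHyp xyCritical L D0 T (8 * Real.pi) (1 / (8 * Real.pi ^ 2)) aCoef torVar where
  hT := hT
  hγ := by positivity
  torus := by
    intro b hb w α hw hco n hn
    obtain ⟨hb', hev⟩ := hb.truncate (half_lt_self xy_critical_pos)
    have hS : C2.ScaleCoef (fun k => max (b k) (xyCritical / 2)) n α :=
      scaleCoef_of_coefAt hL hb' (fun k => le_max_right _ _) hw (hco.congr_temp hev) (hn.congr_temp hev)
    refine (torus_limit hS).congr' ?_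
    filter_upwards [hev] with k hk
    rw [← hk]
  before := by
    have e : 8 * Real.pi * (1 / (8 * Real.pi ^ 2)) = 1 / Real.pi := by
      have := Real.pi_ne_zero
      field_simp
    rw [e]
    exact hP.1
  exit := by
    have e : 8 * Real.pi * (1 / (8 * Real.pi ^ 2)) = 1 / Real.pi := by
      have := Real.pi_ne_zero
      field_simp
    rw [e]
    exact hP.2

/-- [E] P5.10 (with P4.4, P5.1, P5.6, L5.8, L5.9). -/
theorem profile_step_exists : ∃ (L : ℕ) (T : ℝ), 2 ≤ L ∧ 0 < T ∧ ProfileStep L T := by
  obtain ⟨L, D0, T, hL, hD0, hT, hP⟩ := passage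
  exact ⟨L, T, hL, hT, fun b m w hb1 hb2 hm =>
    E5.profile_step (coefHyp hL) (phaseHyp hL hD0) (torusHyp hL hT hP) b m w hb1 hb2 hm⟩

/-! ## 2. [F] Section 7 -/

/-- [F] s7, first half. -/
theorem center_limit_glued : ∃ (L : ℕ) (κ : ℝ), 2 ≤ L ∧
    Tendsto (fun N : ℕ => Real.log (centerMag xyCritical (L ^ N)) + Real.log L * N / 8 - Real.log N / 16)
      atTop (𝓝 κ) := by
  obtain ⟨L, t, ε, C, hL, hε, ht, h⟩ := center_consecutive
  obtain ⟨cG, hg⟩ := green_constant L hL
  have hL1 : (1 : ℝ) < L := by exact_mod_cast (by omega : 1 < L)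
  obtain ⟨ρ, hρ, hinc⟩ := increment_of_consecutive
    (lM := fun N => Real.log (centerMag xyCritical (L ^ N))) (g := fun N => unitEnergy (L ^ N))
    (Real.log_pos hL1).ne' hg (summable_of_log_div_sq ht) (SerCvg.of_summable hε) h
  obtain ⟨κ, hκ⟩ := center_limit_of_increment
    (lM := fun N => Real.log (centerMag xyCritical (L ^ N))) hρ hinc
  exact ⟨L, κ, hL, hκ⟩

/-- the statement of S0531. -/
theorem s0531_glued : ∃ B : ℝ, 0 < B ∧
    Tendsto (fun r : ℕ => xyCorr xyCritical r /
      ((r : ℝ) ^ (-(1 : ℝ) / 4) * Real.log r ^ ((1 : ℝ) / 8))) atTop (𝓝 B) := by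
  obtain ⟨L, κ, hL, hκ⟩ := center_limit_glued
  obtain ⟨c, hc, hbulk⟩ := geometry_bulk
  exact s0531_of hL hc hκ geometry_center hbulk

/-! ## 3. [E] Section 6, last step -/

/-- pure: change of the base of the logarithm. -/
theorem s0532_of {m : ℝ → ℝ} {bc T : ℝ} {L : ℕ} (hL : 2 ≤ L) (hT : 0 < T)
    (h : Tendsto (fun b => Real.sqrt (bc - b) * Real.logb L (m b)⁻¹) (𝓝[<] bc) (𝓝 T)) :
    ∃ A : ℝ, 0 < A ∧ Tendsto (fun b : ℝ => Real.sqrt (bc - b) * Real.log (m b)⁻¹) (𝓝[<] bc) (𝓝 A) := by
  have hL1 : (1 : ℝ) < L := by exact_mod_cast (by omega : 1 < L)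
  have hlog : 0 < Real.log L := Real.log_pos hL1
  refine ⟨T * Real.log L, mul_pos hT hlog, (h.mul_const (Real.log L)).congr fun b => ?_⟩
  rw [Real.logb, mul_assoc, div_mul_cancel₀ _ hlog.ne']

/-- the statement of S0532 (in the vocabulary of `Claims.C0460`). -/
theorem s0532_glued : ∃ A : ℝ, 0 < A ∧
    Tendsto (fun b : ℝ => Real.sqrt (Claims.C0460.xyCritical - b) * Real.log (Claims.C0460.xyMass b)⁻¹)
      (𝓝[<] Claims.C0460.xyCritical) (𝓝 A) := by
  obtain ⟨L, T, hL, hT, h⟩ := profile_step_exists
  rw [xyMass_bridge, xyCritical_bridge]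
  exact s0532_of hL hT (mass_of_profile L hL T hT h)

end

end Claimed.Agent.R285.Glue
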