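import Claimed.Agent.R285.Defs

/-!
# ROW 285: the DEFINITIONS of `Glue/Wire.lean` (`centerConn`, `unitEnergy`), moved here verbatim (helper271, 14:20Z) so that the PROOF files
`R285/Obs/Green*.lean` can import them (layering rule of `R285/Defs.lean`) and `Glue/Wire.lean` can import those files at the end.  No contract, no sorry.
-/

namespace Claimed.Agent.R285.Glue

open MeasureTheory Filter Topology Claims.C0459

noncomputable section

/-- the unit connection of `centerMag`: dual bonds crossing the primal path from the centre to the right wall. -/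
def centerConn (n : ℕ) : (square (2 * n)).E → ℤ := fun e =>
  if e.1.2 = false ∧ e.1.1.2.1 + 1 = n ∧ n ≤ e.1.1.1.1 then 1 else 0

theorem centerMag_eq (b : ℝ) (n : ℕ) (hn : n ≠ 0) :
    centerMag b n = (square (2 * n)).ratio b {(⟨0, by omega⟩, ⟨0, by omega⟩)} (centerConn n) := by
  simp only [centerMag, hn, dif_neg, not_false_eq_true]
  rfl

/-- `g_n = ‖η_n‖²`, the energy of the minimising real unit field on the free dual square ([F] s6, `= 4π² G_n(0,0)`). -/
def unitEnergy (n : ℕ) : ℝ :=
  ⨅ φ : (square (2 * n)).V → ℝ,
    ∑ e, (φ ((square (2 * n)).tgt e) - φ ((square (2 * n)).src e) + 2 * Real.pi * (centerConn n e : ℝ)) ^ 2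

end

end Claimed.Agent.R285.Glue
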